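import Vale.Agent.P181.Z.H483.XE

/-! # The core of the analysis half for one given `x` -/

open Real Finset

namespace Vale.Agent.P181.Z.H483

open Vale.Agent.P181.Z.H582

/-- **Core for one `x`.** -/
theorem core_x {h : ℕ} (L : Finset (Fin h → ℕ)) (hL : ∀ v ∈ L, v ≠ 0) (x : Fin h → ℝ)
    (hx : ∀ i, 0 < x i) (hmono : Monotone x) (m c : Fin h → ℝ)
    (hmean : ∀ i, mean L x i = m i - c i / x i)
    (N : ℕ) (f : (Fin h → ℕ) → ℝ) (P : ℝ) (hP0 : 0 < P)
    (h1 : ∀ θ, f θ ≤ cnt L N θ)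
    (h2 : ∀ w, 0 < cnt L N w → ∃ θ : Fin h → ℕ,
      (∀ r : ℕ, ∑ i : Fin h, (if r ≤ (i : ℕ) then θ i else 0) ≤
        ∑ i : Fin h, (if r ≤ (i : ℕ) then w i else 0)) ∧ (cnt L N w : ℝ) ≤ P * f θ)
    (y D : ℝ) (hy0 : 0 ≤ y) (hy : y ≤ 1 / 4)
    (τ : ℝ) (hτ : 0 ≤ τ) (hτL : ∀ v ∈ L, τ < dotp x v)
    (hT : exp (-τ * (N + 1 : ℕ) + (exp τ - 1) * ∑ v ∈ L,
        exp (-dotp x v) / (1 - exp τ * exp (-dotp x v))) ≤ 1 / 4)
    (nW : ℝ) (hnW : 0 < nW) (hW : (((MF L N).image Multiset.sum).card : ℝ) ≤ nW)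
    (hsmall : 2 * P * nW * exp (-(y * D) + 38 * y ^ 2 * nn L x) ≤ 1)
    (J : (Fin h → ℕ) → Prop) [DecidablePred J] (σJ : ℝ) (hσ : 0 ≤ σJ)
    (hJ : ∀ v ∈ L, J v → σJ < dotp x v) (lam : Fin h → ℕ) (t : ℕ)
    (hc : dotp x lam - ∑ i, x i * m i + ∑ i, c i + h * D + log (2 * P * nW) +
      (exp σJ - 1) * ∑ v ∈ L.filter J,
        exp (-dotp x v) / (1 - exp σJ * exp (-dotp x v)) ≤ σJ * t) :
    ∃ θ : Fin h → ℕ, (∀ i, |x i * (m i - θ i) - c i| < D) ∧ ((NTs L J lam t).ncard : ℝ) ≤ f θ := by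
  have hZ : 0 < ZL L x := ZL_pos L x fun v hv => dotp_pos x hx (hL v hv)
  have hTT : 3 / 4 * ZL L x ≤ ∑ s ∈ MF L N, exp (-dotp x s.sum) := by
    have := total_ge L x τ hτ hτL N
    have h3 := mul_le_mul_of_nonneg_right hT hZ.le
    linarith
  obtain ⟨θ, hθ, hF⟩ := pig L hL x hx hmono N f P hP0 h1 h2 y D hy0 hy hTT nW hnW hW hsmall
  have hxm : ∀ i, x i * mean L x i = x i * m i - c i := fun i => by
    have := (hx i).ne'
    rw [hmean i]; field_simp
  refine ⟨θ, fun i => ?_, ?_⟩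
  · have := hθ i
    rw [hxm i] at this
    rw [abs_sub_comm] at this
    have e : x i * (m i - θ i) - c i = x i * m i - c i - x i * θ i := by ring
    rw [e]; exact this
  · refine cmp L hL x hx J σJ hσ hJ (f θ) P nW hP0 hnW θ lam t hF ?_
    have h4 : ∑ i, x i * m i - ∑ i, c i - h * D ≤ dotp x θ := by
      have h5 : ∀ i ∈ (Finset.univ : Finset (Fin h)),
          x i * m i - c i - D ≤ x i * (θ i : ℝ) := fun i _ => by
        have := (abs_lt.1 (hθ i)).1
        rw [hxm i] at this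
        linarith
      have h6 := Finset.sum_le_sum h5
      rw [Finset.sum_sub_distrib, Finset.sum_sub_distrib, Finset.sum_const, Finset.card_univ,
        Fintype.card_fin, nsmul_eq_mul] at h6
      exact h6
    linarith

/-- the number of weights -/
theorem card_weights_le {h : ℕ} (L : Finset (Fin h → ℕ)) (a N : ℕ)
    (hLa : ∀ v ∈ L, ∀ i, v i ≤ a) :
    (((MF L N).image Multiset.sum).card : ℝ) ≤ ((N * a + 1 : ℕ) : ℝ) ^ h := by
  have hsub : (MF L N).image Multiset.sum ⊆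
      Fintype.piFinset (fun _ : Fin h => Finset.range (N * a + 1)) := by
    intro w hw
    obtain ⟨s, hs, rfl⟩ := Finset.mem_image.1 hw
    obtain ⟨hc, hv⟩ := (mem_MF L N s).1 hs
    refine Fintype.mem_piFinset.2 fun i => Finset.mem_range.2 (Nat.lt_succ_of_le ?_)
    have key : ∀ s : Multiset (Fin h → ℕ), (∀ v ∈ s, v ∈ L) →
        s.sum i ≤ Multiset.card s * a := by
      intro s
      induction s using Multiset.induction_on with
      | empty => intro _; simp
      | cons v s ih =>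
        intro hvs
        rw [Multiset.sum_cons, Multiset.card_cons, Pi.add_apply, Nat.succ_mul]
        have e1 := ih fun u hu => hvs u (Multiset.mem_cons_of_mem hu)
        have e2 := hLa v (hvs v (Multiset.mem_cons_self v s)) i
        omega
    exact (key s hv).trans (Nat.mul_le_mul_right a hc)
  have h1 := Finset.card_le_card hsub
  rw [Fintype.card_piFinset_const, Finset.card_range] at h1
  exact_mod_cast h1

end Vale.Agent.P181.Z.H483
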