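import Vale.Agent.P181.H530.Torus2
import Vale.Agent.P181.H921.ZNp
import Vale.Agent.P181.Z.H483.Core

/-! # The row-free form of the inputs (h1), (h2) -/

open Finset

namespace Vale.Agent.P181.Z.H483

open Vale.Agent.P181.Z.H582 Vale.Agent.P181.H530.Torus Vale.Agent.P181.H280

variable {h : ℕ}

/-- forget row `0` -/
def tl (v : Fin (h + 1) → ℕ) : Fin h → ℕ := fun i => v i.succ

/-- restore row `0` -/
def up (a : ℕ) (v : Fin h → ℕ) : Fin (h + 1) → ℕ := Fin.cons (a - ∑ i, v i) v

theorem tl_up (a : ℕ) (v : Fin h → ℕ) : tl (up a v) = v := by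
  funext i; simp [tl, up]

theorem sum_up {a : ℕ} {v : Fin h → ℕ} (hv : ∑ i, v i ≤ a) : ∑ i, up a v i = a := by
  rw [Fin.sum_univ_succ]
  simp only [up, Fin.cons_zero, Fin.cons_succ]
  omega

theorem up_tl {a : ℕ} {v : Fin (h + 1) → ℕ} (hv : ∑ i, v i = a) : up a (tl v) = v := by
  rw [Fin.sum_univ_succ] at hv
  funext i
  refine Fin.cases ?_ (fun i => ?_) i
  · simp only [up, tl, Fin.cons_zero]; omega
  · simp [up, tl]

/-- nonzero parts below row `0` -/
def bar (m : Multiset (Fin (h + 1) → ℕ)) : Multiset (Fin h → ℕ) :=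
  (m.map tl).filter fun v => v ≠ 0

/-- the inverse -/
def unbar (N a : ℕ) (s : Multiset (Fin h → ℕ)) : Multiset (Fin (h + 1) → ℕ) :=
  (s + Multiset.replicate (N - Multiset.card s) 0).map (up a)

theorem sum_bar (m : Multiset (Fin (h + 1) → ℕ)) : (bar m).sum = tl m.sum := by
  induction m using Multiset.induction_on with
  | empty => funext i; simp [bar, tl]
  | cons v m ih =>
    have e : tl (v + m.sum) = tl v + tl m.sum := by funext i; simp [tl]
    rw [Multiset.sum_cons, e, ← ih]
    unfold bar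
    rw [Multiset.map_cons]
    by_cases hv : tl v = 0
    · rw [Multiset.filter_cons_of_neg _ (by simpa using hv), hv, zero_add]
    · rw [Multiset.filter_cons_of_pos _ (by simpa using hv), Multiset.sum_cons]

theorem sum_map_up (a : ℕ) (t : Multiset (Fin h → ℕ)) : tl (t.map (up a)).sum = t.sum := by
  induction t using Multiset.induction_on with
  | empty => funext i; simp [tl]
  | cons v t ih =>
    have e : ∀ u w : Fin (h + 1) → ℕ, tl (u + w) = tl u + tl w := fun u w => by
      funext i; simp [tl]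
    rw [Multiset.map_cons, Multiset.sum_cons, Multiset.sum_cons, e, ih, tl_up]

theorem bar_add_replicate (m : Multiset (Fin (h + 1) → ℕ)) :
    bar m + Multiset.replicate (Multiset.card m - Multiset.card (bar m)) 0 = m.map tl := by
  have h1 : bar m + (m.map tl).filter (fun v => ¬ v ≠ 0) = m.map tl :=
    Multiset.filter_add_not _ _
  have h2 : (m.map tl).filter (fun v => ¬ v ≠ 0) =
      Multiset.replicate ((m.map tl).count 0) 0 := by
    rw [← Multiset.filter_eq']
    exact Multiset.filter_congr fun v _ => by simp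
  have h3 := congrArg Multiset.card h1
  rw [h2, Multiset.card_add, Multiset.card_replicate, Multiset.card_map] at h3
  have h4 : Multiset.card m - Multiset.card (bar m) = (m.map tl).count 0 := by omega
  rw [h4, ← h2, h1]

theorem unbar_bar {N a : ℕ} {m : Multiset (Fin (h + 1) → ℕ)} (hc : Multiset.card m = N)
    (ha : ∀ v ∈ m, ∑ i, v i = a) : unbar N a (bar m) = m := by
  unfold unbar
  rw [← hc, bar_add_replicate, Multiset.map_map]
  conv_rhs => rw [← Multiset.map_id m]
  exact Multiset.map_congr rfl fun v hv => up_tl (ha v hv)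

theorem bar_unbar {N a : ℕ} {s : Multiset (Fin h → ℕ)} (hs : ∀ v ∈ s, v ≠ 0) :
    bar (unbar N a s) = s := by
  unfold bar unbar
  rw [Multiset.map_map]
  have e : (s + Multiset.replicate (N - Multiset.card s) 0).map (tl ∘ up a) =
      s + Multiset.replicate (N - Multiset.card s) 0 := by
    conv_rhs => rw [← Multiset.map_id (s + Multiset.replicate (N - Multiset.card s) 0)]
    exact Multiset.map_congr rfl fun v _ => tl_up a v
  rw [e, Multiset.filter_add, Multiset.filter_eq_self.2 hs]
  have e2 : Multiset.filter (fun v : Fin h → ℕ => v ≠ 0)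
      (Multiset.replicate (N - Multiset.card s) 0) = 0 := by
    rw [Multiset.filter_eq_nil]
    intro v hv
    rw [Multiset.eq_of_mem_replicate hv]; simp
  rw [e2, add_zero]

/-- **[BAR]** the two ways to count -/
theorem ncard_MS (N a : ℕ) (mu : Fin (h + 1) → ℕ) (hmu : ∑ i, mu i = N * a) :
    (MS (h + 1) N a mu).ncard = cnt (Vale.Agent.P181.H921.Z.Lt a h) N (tl mu) := by
  classical
  rw [cnt, ← Set.ncard_coe_finset]
  refine Set.ncard_congr (fun m _ => bar m) ?_ ?_ ?_
  · rintro m ⟨h1, h2, h3⟩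
    rw [Finset.mem_coe, Finset.mem_filter, mem_MF]
    refine ⟨⟨?_, fun v hv => ?_⟩, by rw [sum_bar, h3]⟩
    · have : Multiset.card (bar m) ≤ Multiset.card (m.map tl) :=
        Multiset.card_le_card (Multiset.filter_le _ _)
      rw [Multiset.card_map] at this
      omega
    · obtain ⟨hv1, hv2⟩ := Multiset.mem_filter.1 hv
      obtain ⟨u, hu, rfl⟩ := Multiset.mem_map.1 hv1
      refine Vale.Agent.P181.H921.Z.mem_Lt.2 ⟨?_, ?_⟩
      · by_contra hc
        apply hv2
        funext i
        have : tl u i ≤ ∑ i, tl u i :=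
          Finset.single_le_sum (f := fun i => tl u i) (fun _ _ => Nat.zero_le _)
            (Finset.mem_univ i)
        simp only [Pi.zero_apply]
        omega
      · have := h2 u hu
        rw [Fin.sum_univ_succ] at this
        simp only [tl]
        omega
  · rintro m m' ⟨h1, h2, -⟩ ⟨h1', h2', -⟩ he
    rw [← unbar_bar h1 h2, ← unbar_bar h1' h2', he]
  · intro s hs
    rw [Finset.mem_coe, Finset.mem_filter, mem_MF] at hs
    obtain ⟨⟨h1, h2⟩, h3⟩ := hs
    have hne : ∀ v ∈ s, v ≠ 0 := fun v hv h0 => by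
      have := (Vale.Agent.P181.H921.Z.mem_Lt.1 (h2 v hv)).1
      rw [h0] at this
      simp at this
    have hm1 : Multiset.card (unbar N a s) = N := by
      rw [unbar, Multiset.card_map, Multiset.card_add, Multiset.card_replicate]; omega
    have hm2 : ∀ v ∈ unbar N a s, ∑ i, v i = a := by
      intro v hv
      obtain ⟨u, hu, rfl⟩ := Multiset.mem_map.1 hv
      apply sum_up
      rcases Multiset.mem_add.1 hu with hu | hu
      · exact (Vale.Agent.P181.H921.Z.mem_Lt.1 (h2 u hu)).2
      · rw [Multiset.eq_of_mem_replicate hu]; simp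
    have hm3 : tl (unbar N a s).sum = tl mu := by
      rw [unbar, sum_map_up, Multiset.sum_add, Multiset.sum_replicate, smul_zero, add_zero, h3]
    have htot := MS_total (n := h + 1) (N := N) (a := a) (mu := (unbar N a s).sum)
      (s := unbar N a s) ⟨hm1, hm2, rfl⟩
    refine ⟨unbar N a s, ⟨hm1, hm2, ?_⟩, bar_unbar hne⟩
    rw [← up_tl htot, hm3, up_tl hmu]

/-- the full weight -/
def full (N a : ℕ) (θ : Fin h → ℕ) : Fin (h + 1) → ℕ := up (N * a) θ

/-- the multiplicity as a function of the rows below row `0` -/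
noncomputable def fP (N a : ℕ) (θ : Fin h → ℕ) : ℝ :=
  if ∑ i, θ i ≤ N * a then (plethMult N a (h + 1) (full N a θ) : ℝ) else 0

/-- **(h1)** -/
theorem fP_le (N a : ℕ) (θ : Fin h → ℕ) :
    fP N a θ ≤ cnt (Vale.Agent.P181.H921.Z.Lt a h) N θ := by
  unfold fP
  split_ifs with hθ
  · have h1 := plethMult_le_ncard (h + 1) N a (full N a θ)
    rw [ncard_MS N a (full N a θ) (sum_up hθ)] at h1
    have e : tl (full N a θ) = θ := tl_up _ _
    rw [e] at h1
    exact_mod_cast h1
  · positivity

theorem sum_le_of_cnt {N a : ℕ} {w : Fin h → ℕ}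
    (hw : 0 < cnt (Vale.Agent.P181.H921.Z.Lt a h) N w) : ∑ i, w i ≤ N * a := by
  obtain ⟨s, hs⟩ := Finset.card_pos.1 hw
  rw [Finset.mem_filter, mem_MF] at hs
  obtain ⟨⟨h1, h2⟩, h3⟩ := hs
  have key : ∀ s : Multiset (Fin h → ℕ), (∀ v ∈ s, v ∈ Vale.Agent.P181.H921.Z.Lt a h) →
      ∑ i, s.sum i ≤ Multiset.card s * a := by
    intro s
    induction s using Multiset.induction_on with
    | empty => intro _; simp
    | cons v s ih =>
      intro hvs
      rw [Multiset.sum_cons, Multiset.card_cons, Nat.succ_mul]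
      simp only [Pi.add_apply, Finset.sum_add_distrib]
      have e1 := ih fun u hu => hvs u (Multiset.mem_cons_of_mem hu)
      have e2 := (Vale.Agent.P181.H921.Z.mem_Lt.1 (hvs v (Multiset.mem_cons_self v s))).2
      omega
  rw [← h3]
  exact (key s h2).trans (Nat.mul_le_mul_right a h1)

/-- **(h2)** -/
theorem exists_fP (N a : ℕ) (w : Fin h → ℕ)
    (hw : 0 < cnt (Vale.Agent.P181.H921.Z.Lt a h) N w) :
    ∃ θ : Fin h → ℕ, (∀ r : ℕ, ∑ i : Fin h, (if r ≤ (i : ℕ) then θ i else 0) ≤
        ∑ i : Fin h, (if r ≤ (i : ℕ) then w i else 0)) ∧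
      (cnt (Vale.Agent.P181.H921.Z.Lt a h) N w : ℝ) ≤
        ((N * a + 1 : ℕ) : ℝ) ^ ((h + 1) * (h + 1)) * fP N a θ := by
  have hwN := sum_le_of_cnt hw
  obtain ⟨T, ⟨hT1, hT2⟩, hT3⟩ := exists_plethMult (n := h + 1) (N := N) (a := a) (full N a w)
  have htot : ∑ i, T i = N * a := by rw [hT1]; exact sum_up hwN
  have hle : ∑ i, tl T i ≤ N * a := by
    rw [Fin.sum_univ_succ] at htot
    simp only [tl]; omega
  have hfull : full N a (tl T) = T := up_tl htot
  refine ⟨tl T, fun r => ?_, ?_⟩
  · have := hT2 (r + 1)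
    rw [Finset.sum_filter, Finset.sum_filter, Fin.sum_univ_succ, Fin.sum_univ_succ] at this
    simpa [full, up, tl] using this
  · rw [ncard_MS N a (full N a w) (sum_up hwN), show tl (full N a w) = w from tl_up _ _] at hT3
    rw [fP, if_pos hle, hfull]
    exact_mod_cast hT3

end Vale.Agent.P181.Z.H483
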