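import Vale.Agent.P181.Z.H483.Bar
import Vale.Agent.P181.Z.H328.Steps

/-! # From the window to the steps, with the equaliser weight at a wall -/

open Real Finset

namespace Vale.Agent.P181.Z.H483

open Vale.Agent.P181.Z.H582 Vale.Agent.P181.H921.Z Vale.Agent.P181.Z.H328

/-- larger coordinate of `x`, smaller mean -/
theorem mean_anti (a h : ℕ) (x : Fin h → ℝ) (hx : ∀ i, 0 < x i) {i j : Fin h} (hij : x i ≤ x j) :
    mean (Lt a h) x j ≤ mean (Lt a h) x i := by
  classical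
  set g : ℝ → ℝ := fun t => exp (-t) / (1 - exp (-t)) with hg
  have ganti : ∀ s t : ℝ, 0 < s → s ≤ t → g t ≤ g s := by
    intro s t hs hst
    have h1 : exp (-t) ≤ exp (-s) := exp_le_exp.2 (by linarith)
    have h2 : exp (-s) < 1 := by rw [Real.exp_lt_one_iff]; linarith
    have h3 : 0 < exp (-t) := exp_pos _
    rw [hg]
    simp only
    rw [div_le_div_iff₀ (by linarith) (by linarith)]
    nlinarith
  set sw : (Fin h → ℕ) → (Fin h → ℕ) := fun v k => v (Equiv.swap i j k) with hsw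
  have hsum : ∀ v : Fin h → ℕ, ∑ k, sw v k = ∑ k, v k := fun v =>
    Fintype.sum_equiv (Equiv.swap i j) _ _ fun k => rfl
  have hmem : ∀ v ∈ Lt a h, sw v ∈ Lt a h := by
    intro v hv
    rw [mem_Lt] at hv ⊢
    rw [hsum v]
    exact hv
  have hinv : ∀ v, sw (sw v) = v := by
    intro v
    funext k
    simp [hsw]
  have hswi : ∀ v, sw v i = v j := fun v => by simp [hsw]
  have hswj : ∀ v, sw v j = v i := fun v => by simp [hsw]
  have hne : ∀ v ∈ Lt a h, v ≠ 0 := by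
    intro v hv h0
    rw [mem_Lt, h0] at hv
    simp at hv
  have key : ∑ v ∈ Lt a h, ((v i : ℝ) - v j) * g (dotp x v) =
      ∑ v ∈ Lt a h, ((v j : ℝ) - v i) * g (dotp x (sw v)) := by
    refine Finset.sum_nbij' sw sw hmem hmem (fun v _ => hinv v) (fun v _ => hinv v)
      (fun v _ => ?_)
    rw [hinv, hswi, hswj]
  have hd : mean (Lt a h) x i - mean (Lt a h) x j =
      ∑ v ∈ Lt a h, ((v i : ℝ) - v j) * g (dotp x v) := by
    unfold mean
    rw [← Finset.sum_sub_distrib]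
    exact Finset.sum_congr rfl fun v _ => by rw [hg]; ring
  have h2 : 0 ≤ 2 * (mean (Lt a h) x i - mean (Lt a h) x j) := by
    have e : 2 * (mean (Lt a h) x i - mean (Lt a h) x j) =
        ∑ v ∈ Lt a h, ((v i : ℝ) - v j) * (g (dotp x v) - g (dotp x (sw v))) := by
      rw [two_mul]
      nth_rewrite 2 [hd]
      rw [key, hd, ← Finset.sum_add_distrib]
      exact Finset.sum_congr rfl fun v _ => by ring
    rw [e]
    refine Finset.sum_nonneg fun v hv => ?_
    have p1 : 0 < dotp x v := dotp_pos x hx (hne v hv)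
    have p2 : 0 < dotp x (sw v) := dotp_pos x hx (hne _ (hmem v hv))
    have hdiff : dotp x v - dotp x (sw v) = (x i - x j) * ((v i : ℝ) - v j) := by
      rcases eq_or_ne i j with rfl | hne'
      · have : sw v = v := by funext k; simp [hsw]
        rw [this]; ring
      · unfold dotp
        rw [← Finset.sum_sub_distrib]
        have e2 : ∑ k, (x k * (v k : ℝ) - x k * (sw v k : ℝ)) =
            ∑ k ∈ ({i, j} : Finset (Fin h)), (x k * (v k : ℝ) - x k * (sw v k : ℝ)) := by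
          symm
          refine Finset.sum_subset (Finset.subset_univ _) fun k _ hk => ?_
          have hki : k ≠ i := fun h0 => hk (by simp [h0])
          have hkj : k ≠ j := fun h0 => hk (by simp [h0])
          have : sw v k = v k := by
            simp only [hsw]
            rw [Equiv.swap_apply_of_ne_of_ne hki hkj]
          rw [this]; ring
        rw [e2, Finset.sum_pair hne', hswi, hswj]
        ring
    rcases le_total (v j : ℝ) (v i) with hv1 | hv1
    · have h3 : dotp x v ≤ dotp x (sw v) := by nlinarith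
      exact mul_nonneg (by linarith) (by linarith [ganti _ _ p1 h3])
    · have h3 : dotp x (sw v) ≤ dotp x v := by nlinarith
      exact mul_nonneg_of_nonpos_of_nonpos (by linarith) (by linarith [ganti _ _ p2 h3])
  linarith

/-- equal targets, equal coordinates -/
theorem eq_of_target (a h : ℕ) (x : Fin h → ℝ) (hx : ∀ i, 0 < x i) (c : ℝ) (hc : 0 < c)
    {i j : Fin h} (he : mean (Lt a h) x i + c / x i = mean (Lt a h) x j + c / x j) :
    x i = x j := by
  rcases lt_trichotomy (x i) (x j) with h1 | h1 | h1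
  · exfalso
    have h2 := mean_anti a h x hx h1.le
    have h3 : c / x j < c / x i := div_lt_div_of_pos_left hc (hx i) h1
    linarith
  · exact h1
  · exfalso
    have h2 := mean_anti a h x hx h1.le
    have h3 : c / x i < c / x j := div_lt_div_of_pos_left hc (hx j) h1
    linarith

/-- The bound for the number of Pieri boxes, general window. -/
lemma kap_le' (H E : ℕ) (e : ℕ → ℕ) (he : ∀ i, e i ≤ E) (G : ℕ) (w u : ℕ → ℝ)
    (hu : ∀ i, i < H → 0 ≤ u i) (hanti : ∀ i, i + 1 < H → u (i + 1) ≤ u i)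
    (A : ℝ) (hA : 1 + (1 + E) * KK E H ≤ A)
    (hwu : ∀ i, i + 1 < H → A * (u i - u (i + 1)) ≤ w i - w (i + 1))
    (hG : (G : ℝ) ≤ u 1) (δ : ℕ → ℤ)
    (hδ : ∀ i, i < H → w i - u i ≤ δ i ∧ (δ i : ℝ) ≤ w i + u i) :
    ∀ j, j < H → (kap e G δ j : ℝ) ≤ KK E j * u j := by
  have hE : (0 : ℝ) ≤ E := Nat.cast_nonneg E
  intro j
  induction j with
  | zero =>
    intro _
    change ((0 : ℤ) : ℝ) ≤ 0 * u 0
    simp
  | succ j ih =>
    intro hj
    have i1 := ih (by omega)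
    have hk0 : (0 : ℝ) ≤ kap e G δ j := by exact_mod_cast kap_nonneg e G δ j
    have hk : kap e G δ (j + 1) =
        max 0 (δ (j + 1) - δ j + (1 + e j) * kap e G δ j + if j = 0 then (G : ℤ) else 0) := rfl
    have hKK : KK E (j + 1) = 3 + (1 + (E : ℝ)) * KK E j := rfl
    have huj := hu j (by omega)
    have huj1 := hu (j + 1) hj
    have h4 : (if j = 0 then (G : ℝ) else 0) ≤ u (j + 1) := by
      by_cases h0 : j = 0
      · subst h0
        rw [if_pos rfl]
        exact hG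
      · rw [if_neg h0]; exact huj1
    have h5 : (1 + (e j : ℝ)) * kap e G δ j ≤ (1 + E) * (KK E j * u j) := by
      have h6 : (e j : ℝ) ≤ E := by exact_mod_cast he j
      have h7 : (1 + (e j : ℝ)) * kap e G δ j ≤ (1 + E) * kap e G δ j :=
        mul_le_mul_of_nonneg_right (by linarith) hk0
      exact h7.trans (mul_le_mul_of_nonneg_left i1 (by linarith))
    have h8 : KK E j ≤ KK E H := KK_mono E (by omega)
    have h9 : (1 + (E : ℝ)) * KK E j ≤ (1 + E) * KK E H :=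
      mul_le_mul_of_nonneg_left h8 (by linarith)
    rcases max_cases (0 : ℤ) (δ (j + 1) - δ j + (1 + e j) * kap e G δ j +
      if j = 0 then (G : ℤ) else 0) with ⟨h10, _⟩ | ⟨h10, _⟩
    · rw [hk, h10, Int.cast_zero]
      exact mul_nonneg (KK_nonneg E _) huj1
    · rw [hk, h10]
      have h6 : ((δ (j + 1) - δ j + (1 + e j) * kap e G δ j +
          if j = 0 then (G : ℤ) else 0 : ℤ) : ℝ) =
          (δ (j + 1) : ℝ) - δ j + (1 + (e j : ℝ)) * kap e G δ j +
            (if j = 0 then (G : ℝ) else 0) := by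
        push_cast
        ring
      rw [h6, hKK]
      have d1 := (hδ (j + 1) hj).2
      have d2 := (hδ j (by omega)).1
      have d3 := hwu j hj
      have d4 := hanti j hj
      have d5 : 0 ≤ (A - 1 - (1 + E) * KK E j) * (u j - u (j + 1)) :=
        mul_nonneg (by linarith) (by linarith)
      nlinarith

/-- **The steps, general window.** -/
theorem steps' (h E : ℕ) (A : ℝ) (hA : 1 + (1 + E) * KK E (h + 2) ≤ A) (e : Fin (h + 2) → ℕ)
    (he : ∀ i, e i ≤ E) (G : ℕ) (w u : Fin (h + 2) → ℝ) (hu : ∀ i, 0 ≤ u i) (hanti : Antitone u)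
    (hwu : ∀ i j, i ≤ j → A * (u i - u j) ≤ w i - w j) (hw : ∀ i, A * u i ≤ w i)
    (hG : (G : ℝ) ≤ u 1) (δ : Fin (h + 2) → ℤ)
    (hδ : ∀ i, w i - u i ≤ δ i ∧ (δ i : ℝ) ≤ w i + u i) :
    ∃ k ν : Fin (h + 2) → ℕ, k 0 = 0 ∧
      (∀ j, δ j = (ν j : ℤ) + k j + ∑ i ∈ univ.filter (fun i => j ≤ i), (e i : ℤ) * k i) ∧
      Antitone ν ∧ ν 1 + G ≤ ν 0 ∧ ∀ i, (k i : ℝ) ≤ KK E (h + 2) * u i := by
  classical
  -- extend everything to the natural numbers
  let e' : ℕ → ℕ := fun i => if hi : i < h + 2 then e ⟨i, hi⟩ else 0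
  let w' : ℕ → ℝ := fun i => if hi : i < h + 2 then w ⟨i, hi⟩ else 1
  let u' : ℕ → ℝ := fun i => if hi : i < h + 2 then u ⟨i, hi⟩ else 1
  let δ' : ℕ → ℤ := fun i => if hi : i < h + 2 then δ ⟨i, hi⟩ else 0
  have e'_eq : ∀ i : Fin (h + 2), e' i = e i := fun i => dif_pos i.isLt
  have w'_eq : ∀ i (hi : i < h + 2), w' i = w ⟨i, hi⟩ := fun i hi => dif_pos hi
  have u'_eq : ∀ i (hi : i < h + 2), u' i = u ⟨i, hi⟩ := fun i hi => dif_pos hi
  have δ'_eq : ∀ i (hi : i < h + 2), δ' i = δ ⟨i, hi⟩ := fun i hi => dif_pos hi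
  have he' : ∀ i, e' i ≤ E := fun i => by
    by_cases hi : i < h + 2
    · change (if hi : i < h + 2 then e ⟨i, hi⟩ else 0) ≤ E
      rw [dif_pos hi]
      exact he _
    · change (if hi : i < h + 2 then e ⟨i, hi⟩ else 0) ≤ E
      rw [dif_neg hi]
      exact Nat.zero_le _
  have hb := kap_le' (h + 2) E e' he' G w' u' (fun i hi => by rw [u'_eq i hi]; exact hu _)
    (fun i hi => by
      rw [u'_eq i (by omega), u'_eq (i + 1) hi]
      exact hanti (by rw [Fin.le_def]; exact Nat.le_succ i)) A hA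
    (fun i hi => by
      rw [u'_eq i (by omega), u'_eq (i + 1) hi, w'_eq i (by omega), w'_eq (i + 1) hi]
      exact hwu _ _ (by rw [Fin.le_def]; exact Nat.le_succ i))
    (by rw [u'_eq 1 (by omega)]; exact hG) δ'
    (fun i hi => by
      rw [u'_eq i hi, w'_eq i hi, δ'_eq i hi]
      exact hδ _)
  -- the number of boxes
  let κ : ℕ → ℤ := kap e' G δ'
  have κ0 : ∀ j, 0 ≤ κ j := kap_nonneg e' G δ'
  let S : ℕ → ℤ := fun j => ∑ i ∈ Finset.Ico j (h + 2), (e' i : ℤ) * κ i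
  let νz : ℕ → ℤ := fun j => δ' j - κ j - S j
  have hS : ∀ j, j < h + 2 → S j = (e' j : ℤ) * κ j + S (j + 1) := by
    intro j hj
    exact Finset.sum_eq_sum_Ico_succ_bot hj _
  have hν : ∀ j, j + 1 < h + 2 → νz (j + 1) + (if j = 0 then (G : ℤ) else 0) ≤ νz j := by
    intro j hj
    have h1 := kap_step e' G δ' j
    have h2 := hS j (by omega)
    change (δ' (j + 1) - κ (j + 1) - S (j + 1)) + _ ≤ δ' j - κ j - S j
    rw [h2]
    change δ' (j + 1) - δ' j + (1 + e' j) * κ j + (if j = 0 then (G : ℤ) else 0) ≤ κ (j + 1) at h1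
    have h3 : (1 + (e' j : ℤ)) * κ j = κ j + e' j * κ j := by ring
    rw [h3] at h1
    linarith
  have hG0 : ∀ j : ℕ, (0 : ℤ) ≤ (if j = 0 then (G : ℤ) else 0) := by
    intro j
    split_ifs
    · exact Int.natCast_nonneg G
    · exact le_rfl
  have hE : (0 : ℝ) ≤ E := Nat.cast_nonneg E
  have hνlast : 0 ≤ νz (h + 1) := by
    have h1 := hb (h + 1) (by omega)
    have h3 : S (h + 1) = (e' (h + 1) : ℤ) * κ (h + 1) := by
      change ∑ i ∈ Finset.Ico (h + 1) (h + 1 + 1), (e' i : ℤ) * κ i = _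
      rw [Nat.Ico_succ_singleton, Finset.sum_singleton]
    change 0 ≤ δ' (h + 1) - κ (h + 1) - S (h + 1)
    rw [h3]
    have h4 : (0 : ℝ) ≤ ((δ' (h + 1) - (1 + e' (h + 1)) * κ (h + 1) : ℤ) : ℝ) := by
      push_cast
      have d1 : w ⟨h + 1, by omega⟩ - u ⟨h + 1, by omega⟩ ≤ δ' (h + 1) := by
        rw [δ'_eq (h + 1) (by omega)]; exact (hδ _).1
      have d2 := hw ⟨h + 1, by omega⟩
      have d3 := hu ⟨h + 1, by omega⟩
      rw [u'_eq (h + 1) (by omega)] at h1
      have d4 : (0 : ℝ) ≤ kap e' G δ' (h + 1) := by exact_mod_cast kap_nonneg e' G δ' (h + 1)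
      have d5 : (1 + (e' (h + 1) : ℝ)) * kap e' G δ' (h + 1) ≤
          (1 + E) * (KK E (h + 1) * u ⟨h + 1, by omega⟩) := by
        have h6 : (e' (h + 1) : ℝ) ≤ E := by exact_mod_cast he' (h + 1)
        have h7 : (1 + (e' (h + 1) : ℝ)) * kap e' G δ' (h + 1) ≤ (1 + E) * kap e' G δ' (h + 1) :=
          mul_le_mul_of_nonneg_right (by linarith) d4
        exact h7.trans (mul_le_mul_of_nonneg_left h1 (by linarith))
      have d6 : (1 + (E : ℝ)) * (KK E (h + 1) * u ⟨h + 1, by omega⟩) ≤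
          (1 + E) * (KK E (h + 2) * u ⟨h + 1, by omega⟩) :=
        mul_le_mul_of_nonneg_left (mul_le_mul_of_nonneg_right (KK_mono E (by omega)) d3)
          (by linarith)
      have d7 : (1 + (1 + E) * KK E (h + 2)) * u ⟨h + 1, by omega⟩ ≤ A * u ⟨h + 1, by omega⟩ :=
        mul_le_mul_of_nonneg_right hA d3
      change (0 : ℝ) ≤ (δ' (h + 1) : ℝ) - (1 + (e' (h + 1) : ℝ)) * (kap e' G δ' (h + 1) : ℝ)
      nlinarith
    have h5 : 0 ≤ δ' (h + 1) - (1 + e' (h + 1)) * κ (h + 1) := by exact_mod_cast h4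
    linarith
  have hνanti : ∀ i d : ℕ, i + d < h + 2 → νz (i + d) ≤ νz i := by
    intro i d
    induction d with
    | zero => intro _; exact le_rfl
    | succ d ih =>
      intro hd
      have h1 := hν (i + d) (by omega)
      have h2 := hG0 (i + d)
      have h3 := ih (by omega)
      change νz (i + d + 1) ≤ νz i
      linarith
  have hνpos : ∀ j, j < h + 2 → 0 ≤ νz j := by
    intro j hj
    have h1 := hνanti j (h + 1 - j) (by omega)
    have h2 : j + (h + 1 - j) = h + 1 := by omega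
    rw [h2] at h1
    linarith
  have cν : ∀ j : Fin (h + 2), ((νz j).toNat : ℤ) = νz j := fun j =>
    Int.toNat_of_nonneg (hνpos j j.isLt)
  have cκ : ∀ j : ℕ, ((κ j).toNat : ℤ) = κ j := fun j => Int.toNat_of_nonneg (κ0 j)
  refine ⟨fun j => (κ j).toNat, fun j => (νz j).toNat, rfl, ?_, ?_, ?_, ?_⟩
  · intro j
    have h1 : ∑ i ∈ univ.filter (fun i => j ≤ i), (e i : ℤ) * ((κ i).toNat : ℤ) = S j := by
      change _ = ∑ i ∈ Finset.Ico (j : ℕ) (h + 2), (e' i : ℤ) * κ i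
      refine Finset.sum_bij (fun i _ => (i : ℕ)) ?_ ?_ ?_ ?_
      · intro i hi
        rw [Finset.mem_filter] at hi
        exact Finset.mem_Ico.2 ⟨Fin.le_def.1 hi.2, i.isLt⟩
      · intro i _ i' _ h2
        exact Fin.ext h2
      · intro i hi
        refine ⟨⟨i, (Finset.mem_Ico.1 hi).2⟩, ?_, rfl⟩
        rw [Finset.mem_filter]
        exact ⟨Finset.mem_univ _, Fin.le_def.2 (Finset.mem_Ico.1 hi).1⟩
      · intro i _
        rw [cκ, e'_eq]
    rw [h1, cν, cκ]
    change δ j = δ' j - κ j - S j + κ j + S j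
    rw [δ'_eq j j.isLt]
    ring
  · intro i j hij
    have h1 := hνanti i (j - i) (by have := Fin.le_def.1 hij; omega)
    have h2 : (i : ℕ) + (j - i) = j := by have := Fin.le_def.1 hij; omega
    rw [h2] at h1
    exact Int.toNat_le_toNat h1
  · have h1 := hν 0 (by omega)
    rw [if_pos rfl] at h1
    change (νz ((1 : Fin (h + 2)) : ℕ)).toNat + G ≤ (νz 0).toNat
    have h2 : ((1 : Fin (h + 2)) : ℕ) = 1 := rfl
    rw [h2]
    have h3 := hνpos 0 (by omega)
    have h4 := hνpos 1 (by omega)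
    change νz (0 + 1) + G ≤ νz 0 at h1
    rw [zero_add] at h1
    omega
  · intro i
    have h1 := hb i i.isLt
    rw [u'_eq i i.isLt] at h1
    have h2 : (((κ i).toNat : ℕ) : ℝ) = ((κ i : ℤ) : ℝ) := by
      exact_mod_cast cκ i
    change (((κ i).toNat : ℕ) : ℝ) ≤ _
    rw [h2]
    refine h1.trans (mul_le_mul_of_nonneg_right ?_ (hu i))
    exact KK_mono E (by have := i.isLt; omega)

/-- the first block of near-equal rows -/
theorem exists_block (H : ℕ) (hH : 1 ≤ H) (l : ℕ → ℝ) (W : ℝ) : ∃ s, 1 ≤ s ∧ s ≤ H ∧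
    (∀ j, j + 1 < s → l j - l (j + 1) < W) ∧ (s < H → W ≤ l (s - 1) - l s) := by
  classical
  have hex : ∃ s, 1 ≤ s ∧ (s = H ∨ W ≤ l (s - 1) - l s) := ⟨H, hH, Or.inl rfl⟩
  refine ⟨Nat.find hex, (Nat.find_spec hex).1, Nat.find_min' hex ⟨hH, Or.inl rfl⟩, ?_, ?_⟩
  · intro j hj
    have h1 := Nat.find_min hex hj
    by_contra hc
    push Not at hc
    exact h1 ⟨Nat.succ_pos j, Or.inr (by simpa using hc)⟩
  · intro hs
    rcases (Nat.find_spec hex).2 with h1 | h1
    · omega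
    · exact h1

/-- the equalised targets -/
theorem exists_m (h : ℕ) (W : ℝ) (hW0 : 0 < W) (lam : Fin (h + 2) → ℕ) (hlam : Antitone lam)
    (hpos : ∀ i, 0 < lam i) (hl1 : ((h : ℝ) + 2) * W < lam 1) :
    ∃ (s : ℕ) (m : Fin (h + 2) → ℝ) (M : ℝ), 1 ≤ s ∧ (∀ j : Fin (h + 2), (j : ℕ) < s → m j = M) ∧
      (∀ j : Fin (h + 2), s ≤ (j : ℕ) → m j = lam j) ∧ (∀ j, m j ≤ lam j) ∧ (∀ j, 0 < m j) ∧
      Antitone m ∧ (∀ j : Fin (h + 2), (j : ℕ) < s → W ≤ lam j - m j) ∧
      (∀ j, (lam j : ℝ) - m j ≤ ((h : ℝ) + 2) * W) := by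
  classical
  set H : ℝ := (h : ℝ) + 2 with hHdef
  have hH2 : 2 ≤ H := by have : (0 : ℝ) ≤ h := Nat.cast_nonneg h; linarith
  let l : ℕ → ℝ := fun i => if hi : i < h + 2 then (lam ⟨i, hi⟩ : ℝ) else 0
  have l_eq : ∀ i (hi : i < h + 2), l i = lam ⟨i, hi⟩ := fun i hi => dif_pos hi
  obtain ⟨s, hs1, hsH, hblock, hgap⟩ := exists_block (h + 2) (by omega) l W
  have hd : ∀ j d, j + d < s → l j - l (j + d) ≤ d * W := by
    intro j d
    induction d with
    | zero => intro _; simp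
    | succ d ih =>
      intro hjd
      have h1 := ih (by omega)
      have h2 := hblock (j + d) (by omega)
      push_cast
      rw [show j + (d + 1) = j + d + 1 from rfl]
      linarith
  obtain ⟨q, hq⟩ : ∃ q : Fin (h + 2), q = ⟨s - 1, by omega⟩ := ⟨_, rfl⟩
  have lq : l (s - 1) = lam q := by rw [hq]; exact l_eq _ _
  -- the distance to the last row of the block
  have hdist : ∀ j : Fin (h + 2), (j : ℕ) < s → (lam j : ℝ) - lam q ≤ (H - 1) * W := by
    intro j hj
    have h1 := hd j (s - 1 - j) (by omega)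
    rw [show (j : ℕ) + (s - 1 - j) = s - 1 by omega, lq, l_eq j j.isLt] at h1
    have h2 : ((s - 1 - (j : ℕ) : ℕ) : ℝ) ≤ H - 1 := by
      have h3 : s - 1 - (j : ℕ) + 1 ≤ h + 2 := by omega
      have h4 : ((s - 1 - (j : ℕ) : ℕ) : ℝ) + 1 ≤ (h : ℝ) + 2 := by exact_mod_cast h3
      linarith
    have h3 : ((s - 1 - (j : ℕ) : ℕ) : ℝ) * W ≤ (H - 1) * W :=
      mul_le_mul_of_nonneg_right h2 hW0.le
    linarith
  -- the block level is positive
  have hqW : W < lam q := by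
    rcases Nat.eq_or_lt_of_le hs1 with h1 | h1
    · have h2 : lam 1 ≤ lam q := hlam (by rw [Fin.le_def, hq]; simp [← h1])
      have h3 : (lam 1 : ℝ) ≤ lam q := by exact_mod_cast h2
      have : W ≤ H * W := by nlinarith
      linarith
    · have h2 := hdist 1 (by simpa using h1)
      have : H * W - (H - 1) * W = W := by ring
      linarith
  have hlamq : ∀ j : Fin (h + 2), (j : ℕ) < s → (lam q : ℝ) ≤ lam j := by
    intro j hj
    have : lam q ≤ lam j := hlam (by rw [Fin.le_def, hq]; simp only; omega)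
    exact_mod_cast this
  have hafter : ∀ j : Fin (h + 2), s ≤ (j : ℕ) → (lam j : ℝ) ≤ lam q - W := by
    intro j hj
    have h1 := hgap (by have := j.isLt; omega)
    rw [lq, l_eq s (by have := j.isLt; omega)] at h1
    have h2 : lam j ≤ lam ⟨s, by have := j.isLt; omega⟩ := hlam (by rw [Fin.le_def]; exact hj)
    have h3 : (lam j : ℝ) ≤ lam ⟨s, by have := j.isLt; omega⟩ := by exact_mod_cast h2
    linarith
  have m_lt : ∀ j : Fin (h + 2), (j : ℕ) < s →
      (if (j : ℕ) < s then (lam q : ℝ) - W else (lam j : ℝ)) = (lam q : ℝ) - W :=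
    fun j hj => if_pos hj
  have m_ge : ∀ j : Fin (h + 2), s ≤ (j : ℕ) →
      (if (j : ℕ) < s then (lam q : ℝ) - W else (lam j : ℝ)) = lam j := fun j hj =>
    if_neg (by omega)
  refine ⟨s, fun j => if (j : ℕ) < s then (lam q : ℝ) - W else lam j, (lam q : ℝ) - W, hs1,
    m_lt, m_ge, ?_, ?_, ?_, ?_, ?_⟩
  · intro j
    rcases lt_or_ge (j : ℕ) s with h1 | h1
    · simp only [m_lt j h1]; linarith [hlamq j h1]
    · simp only [m_ge j h1]; exact le_rfl
  · intro j
    rcases lt_or_ge (j : ℕ) s with h1 | h1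
    · simp only [m_lt j h1]; linarith
    · simp only [m_ge j h1]; exact_mod_cast hpos j
  · intro i j hij
    have hij' : (i : ℕ) ≤ j := Fin.le_def.1 hij
    rcases lt_or_ge (j : ℕ) s with h1 | h1
    · simp only [m_lt j h1, m_lt i (by omega)]; exact le_rfl
    · rcases lt_or_ge (i : ℕ) s with h2 | h2
      · simp only [m_lt i h2, m_ge j h1]; exact hafter j h1
      · simp only [m_ge i h2, m_ge j h1]; exact_mod_cast hlam hij
  · intro j h1
    simp only [m_lt j h1]
    linarith [hlamq j h1]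
  · intro j
    rcases lt_or_ge (j : ℕ) s with h1 | h1
    · simp only [m_lt j h1]
      have := hdist j h1
      have e1 : H * W = (H - 1) * W + W := by ring
      linarith
    · simp only [m_ge j h1, sub_self]
      have : 0 ≤ H * W := by positivity
      linarith

/-- the numbers of the window -/
theorem window (h E : ℕ) (A : ℝ) (hA : 1 + (1 + E) * KK E (h + 2) ≤ A) (e : Fin (h + 2) → ℕ)
    (he : ∀ i, e i ≤ E) (G : ℕ) (hG2 : 2 ≤ G) (b : ℝ) (hb : 0 ≤ b) (lam : Fin (h + 2) → ℕ)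
    (hlam : Antitone lam) (c D : ℝ) (hD : 0 < D) (hcA : A * (2 * D) ≤ c)
    (s : ℕ) (m : Fin (h + 2) → ℝ) (M : ℝ) (hs1 : 1 ≤ s)
    (m_lt : ∀ j : Fin (h + 2), (j : ℕ) < s → m j = M)
    (m_ge : ∀ j : Fin (h + 2), s ≤ (j : ℕ) → m j = lam j)
    (hW : ∀ j : Fin (h + 2), (j : ℕ) < s → A * b ≤ lam j - m j)
    (x : Fin (h + 2) → ℝ) (hx : ∀ i, 0 < x i) (hmono : Monotone x) (hG1 : G * x 1 ≤ D)
    (θ κ : Fin (h + 2) → ℕ) (hκ0 : (κ 0 : ℝ) ≤ b) (hκ1 : κ 1 ≤ 2)
    (hκ2 : ∀ i : Fin (h + 2), 2 ≤ (i : ℕ) → κ i = 0)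
    (hwin : ∀ i, |x i * (m i - θ i) - c| < D) :
    ∃ k ν : Fin (h + 2) → ℕ, k 0 = 0 ∧
      (∀ j, lam j = θ j + κ j + ν j + k j + ∑ i ∈ univ.filter (fun i => j ≤ i), e i * k i) ∧
      Antitone ν ∧ ν 1 + G ≤ ν 0 ∧ ∀ i, (k i : ℝ) ≤ KK E (h + 2) * (2 * (D / x i) + b) := by
  classical
  have hs0 : ((0 : Fin (h + 2)) : ℕ) < s := by
    rw [Fin.val_zero]
    omega
  -- the indicator of the block
  obtain ⟨I, hI1, hI0⟩ : ∃ I : Fin (h + 2) → ℝ, (∀ j : Fin (h + 2), (j : ℕ) < s → I j = b) ∧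
      ∀ j : Fin (h + 2), s ≤ (j : ℕ) → I j = 0 :=
    ⟨fun j => if (j : ℕ) < s then b else 0, fun j hj => if_pos hj, fun j hj => if_neg (by omega)⟩
  have hIb : ∀ j, 0 ≤ I j ∧ I j ≤ b := by
    intro j
    rcases lt_or_ge (j : ℕ) s with h1 | h1
    · rw [hI1 j h1]; exact ⟨hb, le_rfl⟩
    · rw [hI0 j h1]; exact ⟨le_rfl, hb⟩
  obtain ⟨u, hu⟩ : ∃ u : Fin (h + 2) → ℝ, ∀ j, u j = 2 * D * (1 / x j) + I j := ⟨_, fun j => rfl⟩
  obtain ⟨w, hw⟩ : ∃ w : Fin (h + 2) → ℝ, ∀ j, w j = c * (1 / x j) + ((lam j : ℝ) - m j) :=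
    ⟨_, fun j => rfl⟩
  have hinv : ∀ i j : Fin (h + 2), i ≤ j → 1 / x j ≤ 1 / x i := fun i j hij =>
    one_div_le_one_div_of_le (hx i) (hmono hij)
  have hxi0 : ∀ i, 0 < 1 / x i := fun i => one_div_pos.2 (hx i)
  have hind : ∀ i j : Fin (h + 2), i ≤ j → I j ≤ I i := by
    intro i j hij
    have hij' : (i : ℕ) ≤ j := Fin.le_def.1 hij
    rcases lt_or_ge (j : ℕ) s with h1 | h1
    · rw [hI1 j h1, hI1 i (by omega)]
    · rw [hI0 j h1]; exact (hIb i).1
  have hDx : ∀ i, 0 < D * (1 / x i) := fun i => mul_pos hD (hxi0 i)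
  have hu0 : ∀ i, 0 ≤ u i := by
    intro i
    rw [hu]
    have h1 := hDx i
    have h2 := (hIb i).1
    linarith
  have huanti : Antitone u := by
    intro i j hij
    rw [hu, hu]
    have h1 := hinv i j hij
    have h2 := hind i j hij
    have h3 : 2 * D * (1 / x j) ≤ 2 * D * (1 / x i) :=
      mul_le_mul_of_nonneg_left h1 (by linarith)
    linarith
  have hwu : ∀ i j, i ≤ j → A * (u i - u j) ≤ w i - w j := by
    intro i j hij
    have hij' : (i : ℕ) ≤ j := Fin.le_def.1 hij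
    have h1 := hinv i j hij
    have h2 : A * (2 * D) * (1 / x i - 1 / x j) ≤ c * (1 / x i - 1 / x j) :=
      mul_le_mul_of_nonneg_right hcA (by linarith)
    have h3 : A * (I i - I j) ≤ ((lam i : ℝ) - m i) - ((lam j : ℝ) - m j) := by
      rcases lt_or_ge (j : ℕ) s with h4 | h4
      · rw [hI1 j h4, hI1 i (by omega), m_lt j h4, m_lt i (by omega)]
        have h5 : (lam j : ℝ) ≤ lam i := by exact_mod_cast hlam hij
        linarith
      · rcases lt_or_ge (i : ℕ) s with h5 | h5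
        · rw [hI1 i h5, hI0 j h4, m_ge j h4]
          have h6 := hW i h5
          linarith
        · rw [hI0 i h5, hI0 j h4, m_ge j h4, m_ge i h5]
          linarith
    rw [hu, hu, hw, hw]
    linarith
  have hwA : ∀ i, A * u i ≤ w i := by
    intro i
    have h2 : A * (2 * D) * (1 / x i) ≤ c * (1 / x i) :=
      mul_le_mul_of_nonneg_right hcA (hxi0 i).le
    have h3 : A * I i ≤ (lam i : ℝ) - m i := by
      rcases lt_or_ge (i : ℕ) s with h4 | h4
      · rw [hI1 i h4]; exact hW i h4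
      · rw [hI0 i h4, m_ge i h4]; linarith
    rw [hu, hw]
    linarith
  have hDx1 : (G : ℝ) ≤ D * (1 / x 1) := by
    rw [mul_one_div, le_div_iff₀ (hx 1)]; exact hG1
  have hGu : (G : ℝ) ≤ u 1 := by
    rw [hu]
    have e2 := hDx 1
    have e3 := (hIb 1).1
    linarith
  have hκ : ∀ i, (κ i : ℝ) ≤ D * (1 / x i) + I i := by
    intro i
    have e2 := hDx i
    have e3 := (hIb i).1
    rcases Nat.lt_or_ge (i : ℕ) 1 with h1 | h1
    · have hi : i = 0 := Fin.ext (by rw [Fin.val_zero]; omega)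
      rw [hi, hI1 0 hs0]
      rw [hi] at e2
      linarith
    · rcases Nat.lt_or_ge (i : ℕ) 2 with h2 | h2
      · have hi : i = 1 := Fin.ext (by
          have : ((1 : Fin (h + 2)) : ℕ) = 1 := rfl
          rw [this]; omega)
        rw [hi] at e3 ⊢
        have h3 : (κ 1 : ℝ) ≤ 2 := by exact_mod_cast hκ1
        have h4 : (2 : ℝ) ≤ G := by exact_mod_cast hG2
        linarith
      · rw [hκ2 i h2, Nat.cast_zero]
        linarith
  obtain ⟨k, ν, hk0, heq, hν, hν1, hk⟩ := steps' h E A hA e he G w u hu0 huanti hwu hwA hGu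
    (fun j => (lam j : ℤ) - θ j - κ j) (by
      intro i
      have h1 := abs_lt.1 (hwin i)
      have h2 : (m i - θ i) = (x i * (m i - θ i)) * (1 / x i) := by
        rw [mul_one_div, mul_comm (x i), mul_div_assoc, div_self (hx i).ne', mul_one]
      have h3 : (c - D) * (1 / x i) ≤ m i - θ i := by
        rw [h2]
        exact mul_le_mul_of_nonneg_right (by linarith) (hxi0 i).le
      have h4 : m i - θ i ≤ (c + D) * (1 / x i) := by
        rw [h2]
        exact mul_le_mul_of_nonneg_right (by linarith) (hxi0 i).le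
      have h5 := hκ i
      have h6 : (0 : ℝ) ≤ κ i := Nat.cast_nonneg _
      have e2 := hDx i
      have e3 := (hIb i).1
      rw [hu, hw]
      push_cast
      constructor
      · linarith
      · linarith)
  refine ⟨k, ν, hk0, ?_, hν, hν1, ?_⟩
  · intro j
    have h1 := heq j
    have h2 : (lam j : ℤ) = θ j + κ j + ν j + k j +
        ∑ i ∈ univ.filter (fun i => j ≤ i), (e i : ℤ) * k i := by linarith
    have h3 : ((lam j : ℕ) : ℤ) = ((θ j + κ j + ν j + k j +
        ∑ i ∈ univ.filter (fun i => j ≤ i), e i * k i : ℕ) : ℤ) := by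
      rw [h2]; push_cast; ring
    exact_mod_cast h3
  · intro i
    refine (hk i).trans (mul_le_mul_of_nonneg_left ?_ (KK_nonneg E _))
    rw [hu, ← mul_one_div D]
    have := (hIb i).2
    linarith

/-- **The bridge.** -/
theorem bridge (h E : ℕ) : ∃ K : ℝ, 1 ≤ K ∧ ∀ (e : Fin (h + 2) → ℕ) (_ : ∀ i, e i ≤ E)
    (G a : ℕ) (_ : 2 ≤ G) (lam : Fin (h + 2) → ℕ) (_ : Antitone lam)
    (_ : K * ((a : ℝ) + 3) < lam 1) (_ : ∀ i, 0 < lam i) (c D : ℝ) (_ : 0 < D) (_ : K * D ≤ c),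
    ∃ m : Fin (h + 2) → ℝ, (∀ i, 0 < m i) ∧ Antitone m ∧ (∀ i, m i ≤ lam i) ∧
      (∀ i, (lam i : ℝ) - m i ≤ K * ((a : ℝ) + 3)) ∧
      ∀ x : Fin (h + 2) → ℝ, (∀ i, 0 < x i) → Monotone x →
        (∀ i, mean (Lt a (h + 2)) x i = m i - c / x i) → G * x 1 ≤ D →
        (∑ i, x i * ((lam i : ℝ) - m i) ≤ K * ((a : ℝ) + 3) * x 1) ∧
        ∀ θ κ : Fin (h + 2) → ℕ, κ 0 ≤ a + 3 → κ 1 ≤ 2 →
          (∀ i : Fin (h + 2), 2 ≤ (i : ℕ) → κ i = 0) → (∀ i, |x i * (m i - θ i) - c| < D) →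
          ∃ k ν : Fin (h + 2) → ℕ, k 0 = 0 ∧
            (∀ j, lam j = θ j + κ j + ν j + k j +
              ∑ i ∈ univ.filter (fun i => j ≤ i), e i * k i) ∧
            Antitone ν ∧ ν 1 + G ≤ ν 0 ∧ ∀ i, (k i : ℝ) ≤ K * (D / x i + a + 3) := by
  classical
  obtain ⟨A, hAdef⟩ : ∃ A : ℝ, A = 1 + (1 + E) * KK E (h + 2) := ⟨_, rfl⟩
  have hE : (0 : ℝ) ≤ E := Nat.cast_nonneg E
  have hKK0 : 0 ≤ KK E (h + 2) := KK_nonneg E _
  have hEKK : 0 ≤ (E : ℝ) * KK E (h + 2) := mul_nonneg hE hKK0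
  have hA1 : 1 ≤ A := by rw [hAdef]; linarith
  have hAKK : KK E (h + 2) ≤ A := by rw [hAdef]; linarith
  obtain ⟨H, hHdef⟩ : ∃ H : ℝ, H = (h : ℝ) + 2 := ⟨_, rfl⟩
  have hH2 : 2 ≤ H := by
    rw [hHdef]
    have : (0 : ℝ) ≤ h := Nat.cast_nonneg h
    linarith
  have hHA : 2 * A ≤ H * A := mul_le_mul_of_nonneg_right hH2 (by linarith)
  have hHHA : 2 * (H * A) ≤ H * (H * A) := mul_le_mul_of_nonneg_right hH2 (by linarith)
  refine ⟨H * (H * A), by linarith, ?_⟩
  intro e he G a hG2 lam hlam hl1 hpos c D hD hc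
  have ha0 : (0 : ℝ) ≤ a := Nat.cast_nonneg a
  have hb3 : (0 : ℝ) < (a : ℝ) + 3 := by linarith
  have hW0 : 0 < A * ((a : ℝ) + 3) := mul_pos (by linarith) hb3
  have hKW : H * (A * ((a : ℝ) + 3)) ≤ H * (H * A) * ((a : ℝ) + 3) := by
    have h1 : H * A * ((a : ℝ) + 3) ≤ H * (H * A) * ((a : ℝ) + 3) :=
      mul_le_mul_of_nonneg_right (by linarith) hb3.le
    linarith
  obtain ⟨s, m, M, hs1, m_lt, m_ge, hml, hm0, hmanti, hW, hmd⟩ :=
    exists_m h (A * ((a : ℝ) + 3)) hW0 lam hlam hpos (by rw [← hHdef]; linarith)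
  rw [← hHdef] at hmd
  refine ⟨m, hm0, hmanti, hml, fun i => (hmd i).trans hKW, ?_⟩
  intro x hx hmono hmean hG1
  have hcA : A * (2 * D) ≤ c := by
    have h1 : 2 * A * D ≤ H * (H * A) * D := mul_le_mul_of_nonneg_right (by linarith) hD.le
    linarith
  have hc0 : 0 < c := by
    have : 0 < A * (2 * D) := mul_pos (by linarith) (by linarith)
    linarith
  have hs0 : ((0 : Fin (h + 2)) : ℕ) < s := by
    rw [Fin.val_zero]
    omega
  -- equal coordinates on the block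
  have hxeq : ∀ j : Fin (h + 2), (j : ℕ) < s → x j = x 0 := by
    intro j hj
    refine eq_of_target a (h + 2) x hx c hc0 ?_
    rw [hmean j, hmean 0, m_lt j hj, m_lt 0 hs0]
    ring
  have hx01 : x 0 ≤ x 1 := hmono (Fin.zero_le _)
  refine ⟨?_, ?_⟩
  · have h1 : ∀ i ∈ (univ : Finset (Fin (h + 2))), x i * ((lam i : ℝ) - m i) ≤
        x 1 * (H * (A * ((a : ℝ) + 3))) := by
      intro i _
      rcases lt_or_ge (i : ℕ) s with h1 | h1
      · rw [hxeq i h1]
        have h2 := hmd i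
        have h3 : 0 ≤ (lam i : ℝ) - m i := by linarith [hml i]
        exact (mul_le_mul_of_nonneg_right hx01 h3).trans (mul_le_mul_of_nonneg_left h2 (hx 1).le)
      · rw [m_ge i h1, sub_self, mul_zero]
        exact mul_nonneg (hx 1).le (mul_nonneg (by linarith) hW0.le)
    have h2 := Finset.sum_le_sum h1
    rw [Finset.sum_const, Finset.card_univ, Fintype.card_fin, nsmul_eq_mul] at h2
    refine h2.trans (le_of_eq ?_)
    rw [hHdef]
    push_cast
    ring
  · intro θ κ hκ0 hκ1 hκ2 hwin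
    obtain ⟨k, ν, hk0, heq, hν, hν1, hk⟩ := window h E A (le_of_eq hAdef.symm) e he G hG2
      ((a : ℝ) + 3) hb3.le lam hlam c D hD hcA s m M hs1 m_lt m_ge hW x hx hmono hG1 θ κ
      (by exact_mod_cast hκ0) hκ1 hκ2 hwin
    refine ⟨k, ν, hk0, heq, hν, hν1, fun i => (hk i).trans ?_⟩
    have e2 : 0 < D / x i := div_pos hD (hx i)
    have h1 : KK E (h + 2) * (2 * (D / x i) + ((a : ℝ) + 3)) ≤ A * (2 * (D / x i + a + 3)) :=
      mul_le_mul hAKK (by linarith) (by linarith) (by linarith)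
    have h2 : 2 * A * (D / x i + a + 3) ≤ H * (H * A) * (D / x i + a + 3) :=
      mul_le_mul_of_nonneg_right (by linarith) (by linarith)
    linarith

end Vale.Agent.P181.Z.H483
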