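import Mathlib

/-! # Second-order bound for the tilted letter measure -/

open Real Finset

namespace Vale.Agent.P181.Z.H483

/-- `(1 + t)² ≤ 16 e^{t/4}` -/
theorem sq_le_exp {t : ℝ} (ht : 0 ≤ t) : (1 + t) ^ 2 ≤ 16 * exp (t / 4) := by
  have h1 : 1 + t / 8 + (t / 8) ^ 2 / 2 ≤ exp (t / 8) :=
    Real.quadratic_le_exp_of_nonneg (by positivity)
  have h2 : 1 + t ≤ 4 * exp (t / 8) := by nlinarith [sq_nonneg (t - 8)]
  have h3 : exp (t / 4) = exp (t / 8) * exp (t / 8) := by rw [← Real.exp_add]; ring_nf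
  rw [h3]
  nlinarith [exp_pos (t / 8)]

/-- `t / (1 + t) ≤ 1 - e^{-t}`, in product form -/
theorem le_one_sub_exp {t : ℝ} (_ht : 0 ≤ t) : t ≤ (1 + t) * (1 - exp (-t)) := by
  have h : (1 + t) * exp (-t) ≤ 1 := by
    have h1 : 1 + t ≤ exp t := by linarith [Real.add_one_le_exp t]
    calc (1 + t) * exp (-t) ≤ exp t * exp (-t) := by gcongr
      _ = 1 := by rw [← Real.exp_add]; simp
  nlinarith

theorem abs_exp_sub_one_le' (u : ℝ) : |exp u - 1| ≤ |u| * exp |u| := by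
  rcases le_total 0 u with h | h
  · rw [abs_of_nonneg h, abs_of_nonneg (by linarith [Real.add_one_le_exp u])]
    have h1 : 1 - u ≤ exp (-u) := by linarith [Real.add_one_le_exp (-u)]
    have h2 : exp (-u) * exp u = 1 := by rw [← Real.exp_add]; simp
    nlinarith [exp_pos u]
  · rw [abs_of_nonpos h, abs_of_nonpos (by linarith [Real.exp_le_one_iff.2 h])]
    have h1 : 1 + u ≤ exp u := by linarith [Real.add_one_le_exp u]
    have h2 : 1 ≤ exp (-u) := Real.one_le_exp (by linarith)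
    nlinarith

theorem exp_sub_one_le (u : ℝ) : exp u - 1 ≤ u + u ^ 2 * exp |u| := by
  rcases le_total 0 u with h | h
  · rw [abs_of_nonneg h]
    -- e^u - 1 - u ≤ u (e^u - 1) ≤ u² e^u
    have h1 : exp u - 1 ≤ u * exp u := by
      have := abs_exp_sub_one_le' u
      rw [abs_of_nonneg h, abs_of_nonneg (by linarith [Real.add_one_le_exp u])] at this
      exact this
    have h2 : exp u * (1 - u) ≤ 1 := by
      have h3 : 1 - u ≤ exp (-u) := by linarith [Real.add_one_le_exp (-u)]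
      have h4 : exp (-u) * exp u = 1 := by rw [← Real.exp_add]; simp
      nlinarith [exp_pos u]
    -- e^u - 1 ≤ u e^u, so e^u - 1 - u ≤ u (e^u - 1) ≤ u * (u e^u)
    nlinarith [mul_le_mul_of_nonneg_left h1 h]
  · rw [abs_of_nonpos h]
    have h1 : 1 ≤ exp (-u) := Real.one_le_exp (by linarith)
    -- e^u ≤ 1 + u + u²/2 for u ≤ 0
    have h2 : exp u ≤ 1 + u + u ^ 2 := by
      have h3 : 1 + (-u) + (-u) ^ 2 / 2 ≤ exp (-u) :=
        Real.quadratic_le_exp_of_nonneg (by linarith)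
      have h4 : exp (-u) * exp u = 1 := by rw [← Real.exp_add]; simp
      have h5 : 0 < 1 + (-u) + (-u) ^ 2 / 2 := by nlinarith
      have h6 : (1 + (-u) + (-u) ^ 2 / 2) * exp u ≤ 1 := by
        calc _ ≤ exp (-u) * exp u := by gcongr
          _ = 1 := h4
      by_contra hc
      rw [not_le] at hc
      have h7 : (1 + (-u) + (-u) ^ 2 / 2) * (1 + u + u ^ 2) < 1 := by
        calc _ < (1 + (-u) + (-u) ^ 2 / 2) * exp u := by gcongr
          _ ≤ 1 := h6
      nlinarith [sq_nonneg u, mul_nonneg (sq_nonneg u) (neg_nonneg.2 h), pow_nonneg (neg_nonneg.2 h) 3, sq_nonneg (u ^ 2)]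
    nlinarith [sq_nonneg u]

/-- `-log (1 - s) ≤ s + s² / (1 - s)` -/
theorem neg_log_le {s : ℝ} (h1sp : 0 < 1 - s) : -log (1 - s) ≤ s + s ^ 2 / (1 - s) := by
  have := Real.log_le_sub_one_of_pos (inv_pos.2 h1sp)
  rw [Real.log_inv] at this
  refine this.trans (le_of_eq ?_)
  field_simp; ring

/-- the numbers of one letter: `q = e^{-t}`, `r = q / (1 - q)`, `s = r (e^u - 1)` -/
theorem letter_num {t u : ℝ} (ht : 0 < t) (hu : |u| ≤ t / 4) {q r s : ℝ} (hq : q = exp (-t))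
    (hr : r * (1 - q) = q) (hs : s = r * (exp u - 1)) :
    0 < q ∧ q < 1 ∧ 0 < r ∧ (1 - q) * (1 - s) = 1 - q * exp u ∧ 0 < 1 - s ∧
      q * exp u ≤ exp (-(3 * t / 4)) ∧ r * t ≤ q * (1 + t) ∧
      r * t ≤ (4 / 3 * (1 + t) * q) * (1 - s) := by
  have hq0 : 0 < q := hq ▸ exp_pos _
  have hq1 : q < 1 := by rw [hq, Real.exp_lt_one_iff]; linarith
  have h1q : 0 < 1 - q := by linarith
  have hr0 : 0 < r := by
    by_contra hc
    rw [not_lt] at hc
    nlinarith
  have h1s : (1 - q) * (1 - s) = 1 - q * exp u := by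
    rw [hs]; linear_combination (1 - exp u) * hr
  have hu' : u ≤ t / 4 := (abs_le.1 hu).2
  have hqe : q * exp u ≤ exp (-(3 * t / 4)) := by
    rw [hq, ← Real.exp_add]; exact Real.exp_le_exp.2 (by linarith)
  have hqe1 : exp (-(3 * t / 4)) < 1 := by rw [Real.exp_lt_one_iff]; linarith
  have h1sp : 0 < 1 - s := by
    have : 0 < (1 - q) * (1 - s) := by rw [h1s]; linarith
    exact (mul_pos_iff_of_pos_left h1q).1 this
  have ha : t ≤ (1 + t) * (1 - q) := hq ▸ le_one_sub_exp ht.le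
  have hb : 3 * t / 4 ≤ (1 + 3 * t / 4) * (1 - exp (-(3 * t / 4))) := le_one_sub_exp (by linarith)
  have hrt : r * t ≤ q * (1 + t) := by
    have : (1 - q) * (r * t) ≤ (1 - q) * (q * (1 + t)) := by
      calc (1 - q) * (r * t) = q * t := by linear_combination t * hr
        _ ≤ q * ((1 + t) * (1 - q)) := by gcongr
        _ = _ := by ring
    exact le_of_mul_le_mul_left this h1q
  have hrs : r * t ≤ (4 / 3 * (1 + t) * q) * (1 - s) := by
    have e0 : t ≤ 4 / 3 * (1 + t) * (1 - q * exp u) := by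
      have h9 : (1 + 3 * t / 4) * (1 - exp (-(3 * t / 4))) ≤ (1 + t) * (1 - q * exp u) :=
        mul_le_mul (by linarith) (by linarith) (by linarith) (by linarith)
      linarith
    have e3 : (1 - q) * (r * t) ≤ (1 - q) * ((4 / 3 * (1 + t) * q) * (1 - s)) := by
      calc (1 - q) * (r * t) = q * t := by linear_combination t * hr
        _ ≤ q * (4 / 3 * (1 + t) * (1 - q * exp u)) := by gcongr
        _ = (1 - q) * ((4 / 3 * (1 + t) * q) * (1 - s)) := by rw [← h1s]; ring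
    exact le_of_mul_le_mul_left e3 h1q
  exact ⟨hq0, hq1, hr0, h1s, h1sp, hqe, hrt, hrs⟩

/-- first error term -/
theorem err_one {t w q r : ℝ} (ht : 0 < t) (hw0 : 0 ≤ w) (hq : q = exp (-t))
    (hrt : r * t ≤ q * (1 + t)) :
    r * (w * t ^ 2 * exp (t / 4)) ≤ 16 * w * exp (-t / 2) := by
  have hq0 : 0 < q := hq ▸ exp_pos _
  have hqexp : q * exp (t / 4) * exp (t / 4) = exp (-t / 2) := by
    rw [hq, ← Real.exp_add, ← Real.exp_add]; congr 1; ring
  have hsq := sq_le_exp ht.le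
  have e1 : r * t * t ≤ q * (1 + t) ^ 2 := by
    calc r * t * t ≤ q * (1 + t) * (1 + t) := by
          refine mul_le_mul hrt (by linarith) ht.le (by positivity)
      _ = _ := by ring
  have e2 : q * (1 + t) ^ 2 ≤ q * (16 * exp (t / 4)) := by gcongr
  calc r * (w * t ^ 2 * exp (t / 4)) = w * (r * t * t) * exp (t / 4) := by ring
    _ ≤ w * (q * (16 * exp (t / 4))) * exp (t / 4) := by
        have := e1.trans e2
        gcongr
    _ = 16 * w * (q * exp (t / 4) * exp (t / 4)) := by ring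
    _ = _ := by rw [hqexp]

/-- second error term -/
theorem err_two {t w q r s : ℝ} (ht : 0 < t) (hw0 : 0 ≤ w) (hq : q = exp (-t)) (hr0 : 0 < r)
    (h1sp : 0 < 1 - s) (hrt : r * t ≤ q * (1 + t))
    (hrs : r * t ≤ (4 / 3 * (1 + t) * q) * (1 - s))
    (h3 : s ^ 2 ≤ r ^ 2 * (w * t ^ 2 * exp (t / 2))) :
    s ^ 2 / (1 - s) ≤ 64 / 3 * w * exp (-t / 2) := by
  have hq0 : 0 < q := hq ▸ exp_pos _
  have hsq := sq_le_exp ht.le
  rw [div_le_iff₀ h1sp]
  have e1 : r * t * (r * t) ≤ q * (1 + t) * ((4 / 3 * (1 + t) * q) * (1 - s)) :=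
    mul_le_mul hrt hrs (by positivity) (by positivity)
  have e2 : q * exp (t / 2) * (q * exp (t / 4)) ≤ exp (-t / 2) := by
    rw [hq, ← Real.exp_add, ← Real.exp_add, ← Real.exp_add]
    exact Real.exp_le_exp.2 (by linarith)
  calc s ^ 2 ≤ r ^ 2 * (w * t ^ 2 * exp (t / 2)) := h3
    _ = w * (r * t * (r * t)) * exp (t / 2) := by ring
    _ ≤ w * (q * (1 + t) * ((4 / 3 * (1 + t) * q) * (1 - s))) * exp (t / 2) := by gcongr
    _ = 4 / 3 * w * (1 - s) * ((1 + t) ^ 2 * (q * q * exp (t / 2))) := by ring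
    _ ≤ 4 / 3 * w * (1 - s) * ((16 * exp (t / 4)) * (q * q * exp (t / 2))) := by gcongr
    _ = 64 / 3 * w * (1 - s) * (q * exp (t / 2) * (q * exp (t / 4))) := by ring
    _ ≤ 64 / 3 * w * (1 - s) * exp (-t / 2) := by gcongr
    _ = _ := by ring

/-- one letter: `t = x·v`, `u = y x_i v_i`, `|u| ≤ t / 4` -/
theorem one_letter {t u : ℝ} (ht : 0 < t) (hu : |u| ≤ t / 4) :
    log (1 - exp (-t)) - log (1 - exp (-t) * exp u) ≤
      u * (exp (-t) / (1 - exp (-t))) + 38 * (u / t) ^ 2 * exp (-t / 2) := by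
  obtain ⟨q, hq⟩ : ∃ q, q = exp (-t) := ⟨_, rfl⟩
  obtain ⟨r, hr'⟩ : ∃ r, r = q / (1 - q) := ⟨_, rfl⟩
  obtain ⟨s, hs⟩ : ∃ s, s = r * (exp u - 1) := ⟨_, rfl⟩
  have hq1' : q < 1 := by rw [hq, Real.exp_lt_one_iff]; linarith
  have hr : r * (1 - q) = q := by
    rw [hr']; exact div_mul_cancel₀ _ (by linarith)
  obtain ⟨hq0, hq1, hr0, h1s, h1sp, -, hrt, hrs⟩ := letter_num ht hu hq hr hs
  have hlog : log (1 - q) - log (1 - q * exp u) = -log (1 - s) := by
    rw [← h1s, Real.log_mul (by linarith) h1sp.ne']; ring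
  rw [← hq, hlog, ← hr']
  have hE : exp |u| ≤ exp (t / 4) := Real.exp_le_exp.2 hu
  obtain ⟨w, hw⟩ : ∃ w, w = (u / t) ^ 2 := ⟨_, rfl⟩
  have hw0 : 0 ≤ w := hw ▸ sq_nonneg _
  have huw : u ^ 2 = w * t ^ 2 := by
    rw [hw, div_pow, div_mul_cancel₀]; positivity
  have h2 : s ≤ u * r + r * (w * t ^ 2 * exp (t / 4)) := by
    have h4 := exp_sub_one_le u
    have h3 : u ^ 2 * exp |u| ≤ u ^ 2 * exp (t / 4) := by gcongr
    rw [huw] at h3 h4
    calc s = r * (exp u - 1) := hs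
      _ ≤ r * (u + w * t ^ 2 * exp (t / 4)) := by
          apply mul_le_mul_of_nonneg_left _ hr0.le; linarith
      _ = _ := by ring
  have h3 : s ^ 2 ≤ r ^ 2 * (w * t ^ 2 * exp (t / 2)) := by
    have h4 := abs_exp_sub_one_le' u
    have h5 : |exp u - 1| ≤ |u| * exp (t / 4) := h4.trans (by gcongr)
    have h6 : (exp u - 1) ^ 2 ≤ (|u| * exp (t / 4)) ^ 2 := by
      rw [← sq_abs (exp u - 1)]; gcongr
    have h8 : exp (t / 4) ^ 2 = exp (t / 2) := by
      rw [pow_two, ← Real.exp_add]; congr 1; ring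
    have h7 : (|u| * exp (t / 4)) ^ 2 = w * t ^ 2 * exp (t / 2) := by
      rw [mul_pow, sq_abs, h8, huw]
    rw [hs, mul_pow, ← h7]; gcongr
  have hT1 := err_one ht hw0 hq hrt
  have hT2 := err_two ht hw0 hq hr0 h1sp hrt hrs h3
  have hpos : 0 ≤ w * exp (-t / 2) := by positivity
  have h1 := neg_log_le h1sp
  rw [← hw]
  linarith

open Classical in
/-- **Second-order bound of the tilted letter measure.** -/
theorem mgf_bound {ι : Type*} [Fintype ι] (L : Finset (ι → ℕ)) (hL : ∀ v ∈ L, v ≠ 0)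
    (x : ι → ℝ) (hx : ∀ i, 0 < x i) (i : ι) (y : ℝ) (hy : |y| ≤ 1 / 4) :
    ∑ v ∈ L, (log (1 - exp (-∑ j, x j * v j)) -
        log (1 - exp (-∑ j, x j * v j) * exp (y * (x i * v i)))) ≤
      y * x i * ∑ v ∈ L, v i * (exp (-∑ j, x j * v j) / (1 - exp (-∑ j, x j * v j))) +
        38 * y ^ 2 * ∑ v ∈ L, exp (-(∑ j, x j * v j) / 2) := by
  rw [Finset.mul_sum, Finset.mul_sum, ← Finset.sum_add_distrib]
  refine Finset.sum_le_sum fun v hv => ?_
  set t := ∑ j, x j * (v j : ℝ) with ht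
  have hterm : ∀ j, 0 ≤ x j * (v j : ℝ) := fun j => mul_nonneg (hx j).le (Nat.cast_nonneg _)
  have htpos : 0 < t := by
    obtain ⟨j, hj⟩ : ∃ j, v j ≠ 0 := by
      by_contra hc
      push Not at hc
      exact hL v hv (funext hc)
    have h1 : 0 < x j * (v j : ℝ) := mul_pos (hx j) (by exact_mod_cast Nat.pos_of_ne_zero hj)
    exact h1.trans_le (Finset.single_le_sum (f := fun j => x j * (v j : ℝ))
      (fun j _ => hterm j) (Finset.mem_univ j))
  have hle : x i * v i ≤ t := Finset.single_le_sum (f := fun j => x j * (v j : ℝ))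
      (fun j _ => hterm j) (Finset.mem_univ i)
  have hu : |y * (x i * v i)| ≤ t / 4 := by
    rw [abs_mul, abs_of_nonneg (hterm i)]
    calc |y| * (x i * v i) ≤ 1 / 4 * t := mul_le_mul hy hle (hterm i) (by norm_num)
      _ = t / 4 := by ring
  have h := one_letter htpos hu
  have h2 : (y * (x i * v i) / t) ^ 2 ≤ y ^ 2 := by
    rw [div_pow, mul_pow, div_le_iff₀ (by positivity)]
    have : (x i * v i) ^ 2 ≤ t ^ 2 := by
      have := hterm i
      gcongr
    nlinarith [sq_nonneg y]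
  have h3 : 0 < exp (-t / 2) := exp_pos _
  have h4 : 38 * (y * (x i * v i) / t) ^ 2 * exp (-t / 2) ≤ 38 * y ^ 2 * exp (-t / 2) := by
    gcongr
  calc _ ≤ _ := h
    _ ≤ y * (x i * v i) * (exp (-t) / (1 - exp (-t))) + 38 * y ^ 2 * exp (-t / 2) := by linarith
    _ = _ := by ring

open Classical in
/-- `∑_{v ∈ L} e^{-x·v/2} ≤ ∏_i (1 - e^{-x_i/2})⁻¹` for every finite set `L` of vectors -/
theorem sum_exp_half_le {ι : Type*} [Fintype ι] (L : Finset (ι → ℕ))
    (x : ι → ℝ) (hx : ∀ i, 0 < x i) :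
    ∑ v ∈ L, exp (-(∑ j, x j * v j) / 2) ≤ ∏ i, (1 - exp (-(x i) / 2))⁻¹ := by
  obtain ⟨K, hK⟩ : ∃ K : ℕ, ∀ v ∈ L, ∀ i, v i < K := by
    refine ⟨(∑ v ∈ L, ∑ i, v i) + 1, fun v hv i => ?_⟩
    have h1 : v i ≤ ∑ i, v i := Finset.single_le_sum (f := fun i => v i)
      (fun _ _ => Nat.zero_le _) (Finset.mem_univ i)
    have h2 : ∑ i, v i ≤ ∑ v ∈ L, ∑ i, v i :=
      Finset.single_le_sum (f := fun v : ι → ℕ => ∑ i, v i) (fun _ _ => Nat.zero_le _) hv
    omega
  have hsub : L ⊆ Fintype.piFinset (fun _ : ι => Finset.range K) := fun v hv =>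
    Fintype.mem_piFinset.2 fun i => Finset.mem_range.2 (hK v hv i)
  calc ∑ v ∈ L, exp (-(∑ j, x j * v j) / 2)
      ≤ ∑ v ∈ Fintype.piFinset (fun _ : ι => Finset.range K),
          exp (-(∑ j, x j * v j) / 2) :=
        Finset.sum_le_sum_of_subset_of_nonneg hsub fun _ _ _ => (exp_pos _).le
    _ = ∑ v ∈ Fintype.piFinset (fun _ : ι => Finset.range K),
          ∏ i, (exp (-(x i) / 2)) ^ (v i) := by
        refine Finset.sum_congr rfl fun v _ => ?_
        rw [neg_div, Finset.sum_div, ← Finset.sum_neg_distrib, Real.exp_sum]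
        refine Finset.prod_congr rfl fun i _ => ?_
        rw [← Real.exp_nat_mul]; congr 1; ring
    _ = ∏ i, ∑ k ∈ Finset.range K, (exp (-(x i) / 2)) ^ k := by
        rw [Finset.prod_univ_sum]
    _ ≤ ∏ i, (1 - exp (-(x i) / 2))⁻¹ := by
        refine Finset.prod_le_prod (fun i _ => by positivity) fun i _ => ?_
        have h1 : exp (-(x i) / 2) < 1 := by
          rw [Real.exp_lt_one_iff]; linarith [hx i]
        have h2 := mul_neg_geom_sum (exp (-(x i) / 2)) K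
        have h3 : 0 ≤ exp (-(x i) / 2) ^ K := by positivity
        rw [← one_div, le_div_iff₀ (by linarith), mul_comm, h2]
        linarith

end Vale.Agent.P181.Z.H483
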