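import Vale.Agent.P181.Z.H582.NT
import Vale.Agent.P181.Z.H483.NP

/-! # Window and pigeonhole -/

open Real Finset

namespace Vale.Agent.P181.Z.H483

open Vale.Agent.P181.Z.H582

section tail
variable {ι : Type*} [Fintype ι] [DecidableEq ι]

/-- the mean of row `i` -/
noncomputable def mean (L : Finset (ι → ℕ)) (x : ι → ℝ) (i : ι) : ℝ :=
  ∑ v ∈ L, v i * (exp (-dotp x v) / (1 - exp (-dotp x v)))

/-- the size `∑ e^{-x·v/2}` -/
noncomputable def nn (L : Finset (ι → ℕ)) (x : ι → ℝ) : ℝ :=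
  ∑ v ∈ L, exp (-(dotp x v) / 2)

/-- the tilted vector -/
noncomputable def tilt (x : ι → ℝ) (i : ι) (y : ℝ) : ι → ℝ :=
  fun j => x j - if j = i then y * x i else 0

theorem dotp_tilt (x : ι → ℝ) (i : ι) (y : ℝ) (v : ι → ℕ) :
    dotp (tilt x i y) v = dotp x v - y * (x i * v i) := by
  unfold dotp tilt
  simp only [sub_mul, Finset.sum_sub_distrib, ite_mul, zero_mul, Finset.sum_ite_eq',
    Finset.mem_univ, if_true]
  ring

theorem dotp_nonneg (x : ι → ℝ) (hx : ∀ i, 0 < x i) (v : ι → ℕ) : 0 ≤ dotp x v :=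
  Finset.sum_nonneg fun j _ => mul_nonneg (hx j).le (Nat.cast_nonneg _)

theorem dotp_pos (x : ι → ℝ) (hx : ∀ i, 0 < x i) {v : ι → ℕ} (hv : v ≠ 0) : 0 < dotp x v := by
  obtain ⟨j, hj⟩ : ∃ j, v j ≠ 0 := by
    by_contra hc
    push Not at hc
    exact hv (funext hc)
  have h1 : 0 < x j * (v j : ℝ) := mul_pos (hx j) (by exact_mod_cast Nat.pos_of_ne_zero hj)
  exact h1.trans_le (Finset.single_le_sum (f := fun j => x j * (v j : ℝ))
    (fun j _ => mul_nonneg (hx j).le (Nat.cast_nonneg _)) (Finset.mem_univ j))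

theorem mul_le_dotp (x : ι → ℝ) (hx : ∀ i, 0 < x i) (v : ι → ℕ) (i : ι) :
    x i * v i ≤ dotp x v :=
  Finset.single_le_sum (f := fun j => x j * (v j : ℝ))
    (fun j _ => mul_nonneg (hx j).le (Nat.cast_nonneg _)) (Finset.mem_univ i)

/-- one-sided exponential tail of row `i` -/
theorem tail_one (L : Finset (ι → ℕ)) (hL : ∀ v ∈ L, v ≠ 0) (x : ι → ℝ) (hx : ∀ i, 0 < x i)
    (i : ι) (y : ℝ) (hy : |y| ≤ 1 / 4) (S : Finset (Multiset (ι → ℕ)))
    (hS : ∀ s ∈ S, ∀ v ∈ s, v ∈ L) (σ : ℝ)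
    (hw : ∀ s ∈ S, σ ≤ y * (x i * (s.sum i : ℕ) - x i * mean L x i)) :
    ∑ s ∈ S, exp (-dotp x s.sum) ≤ exp (-σ + 38 * y ^ 2 * nn L x) * ZL L x := by
  have hq1 : ∀ v ∈ L, 0 < 1 - exp (-dotp x v) := fun v hv => by
    have : exp (-dotp x v) < 1 := by
      rw [Real.exp_lt_one_iff]; linarith [dotp_pos x hx (hL v hv)]
    linarith
  have hlt : ∀ v ∈ L, exp (-dotp (tilt x i y) v) < 1 := fun v hv => by
    rw [Real.exp_lt_one_iff, dotp_tilt]
    have h1 := dotp_pos x hx (hL v hv)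
    have h2 := mul_le_dotp x hx v i
    have h3 : 0 ≤ x i * (v i : ℝ) := mul_nonneg (hx i).le (Nat.cast_nonneg _)
    have h4 : y * (x i * v i) ≤ 1 / 4 * dotp x v :=
      (mul_le_mul_of_nonneg_right ((le_abs_self y).trans hy) h3).trans (by linarith)
    linarith
  have h1 : ∑ s ∈ S, (s.map fun v => exp (-dotp (tilt x i y) v)).prod ≤
      ∏ v ∈ L, (1 - exp (-dotp (tilt x i y) v))⁻¹ :=
    mgf_le L _ (fun v hv => ⟨(exp_pos _).le, hlt v hv⟩) S hS
  have h2 : ∏ v ∈ L, (1 - exp (-dotp (tilt x i y) v))⁻¹ ≤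
      ZL L x * exp (y * x i * mean L x i + 38 * y ^ 2 * nn L x) := by
    have hm := mgf_bound L hL x hx i y hy
    have h3 : ∏ v ∈ L, (1 - exp (-dotp (tilt x i y) v))⁻¹ = ZL L x *
        exp (∑ v ∈ L, (log (1 - exp (-dotp x v)) -
          log (1 - exp (-dotp x v) * exp (y * (x i * v i))))) := by
      rw [ZL, Real.exp_sum, ← Finset.prod_mul_distrib]
      refine Finset.prod_congr rfl fun v hv => ?_
      have e1 : exp (-dotp (tilt x i y) v) = exp (-dotp x v) * exp (y * (x i * v i)) := by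
        rw [dotp_tilt, ← Real.exp_add]; congr 1; ring
      have p1 : 0 < 1 - exp (-dotp x v) * exp (y * (x i * v i)) := by
        have := hlt v hv
        rw [e1] at this
        linarith
      rw [Real.exp_sub, Real.exp_log (hq1 v hv), Real.exp_log p1, e1]
      have := (hq1 v hv).ne'
      field_simp
    rw [h3]
    have hZ : 0 ≤ ZL L x := (ZL_pos L x fun v hv => dotp_pos x hx (hL v hv)).le
    exact mul_le_mul_of_nonneg_left (Real.exp_le_exp.2 hm) hZ
  have h4 : ∀ s ∈ S, exp (-dotp x s.sum) ≤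
      exp (-σ - y * x i * mean L x i) * (s.map fun v => exp (-dotp (tilt x i y) v)).prod := by
    intro s hs
    rw [prod_exp_dotp, dotp_tilt, ← Real.exp_add]
    apply Real.exp_le_exp.2
    have := hw s hs
    nlinarith
  calc ∑ s ∈ S, exp (-dotp x s.sum)
      ≤ ∑ s ∈ S, exp (-σ - y * x i * mean L x i) *
          (s.map fun v => exp (-dotp (tilt x i y) v)).prod := Finset.sum_le_sum h4
    _ = exp (-σ - y * x i * mean L x i) *
          ∑ s ∈ S, (s.map fun v => exp (-dotp (tilt x i y) v)).prod := by rw [Finset.mul_sum]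
    _ ≤ exp (-σ - y * x i * mean L x i) *
          (ZL L x * exp (y * x i * mean L x i + 38 * y ^ 2 * nn L x)) := by
        have := h1.trans h2
        gcongr
    _ = exp (-σ + 38 * y ^ 2 * nn L x) * ZL L x := by
        rw [mul_left_comm, ← Real.exp_add, mul_comm]; congr 2; ring

end tail

section total
variable {ι : Type*} [Fintype ι] [DecidableEq ι]

/-- multisets over `L` with at most `N` letters -/
def MF (L : Finset (ι → ℕ)) (N : ℕ) : Finset (Multiset (ι → ℕ)) :=
  (Finset.range (N + 1)).biUnion fun k => (L.sym k).image fun s : Sym (ι → ℕ) k => (s : Multiset (ι → ℕ))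

theorem mem_MF (L : Finset (ι → ℕ)) (N : ℕ) (s : Multiset (ι → ℕ)) :
    s ∈ MF L N ↔ Multiset.card s ≤ N ∧ ∀ v ∈ s, v ∈ L := by
  simp only [MF, Finset.mem_biUnion, Finset.mem_range, Finset.mem_image]
  constructor
  · rintro ⟨k, hk, t, ht, rfl⟩
    refine ⟨?_, fun v hv => (Finset.mem_sym_iff.1 ht) v (Sym.mem_coe.1 hv)⟩
    have : Multiset.card (t : Multiset (ι → ℕ)) = k := t.2
    omega
  · rintro ⟨h1, h2⟩
    exact ⟨Multiset.card s, by omega, ⟨s, rfl⟩, Finset.mem_sym_iff.2 h2, rfl⟩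

/-- tail of the number of letters -/
theorem tail_card (L : Finset (ι → ℕ)) (x : ι → ℝ) (τ : ℝ) (hτ : 0 ≤ τ)
    (hL : ∀ v ∈ L, τ < dotp x v) (t : ℕ) (S : Finset (Multiset (ι → ℕ)))
    (hS : ∀ s ∈ S, ∀ v ∈ s, v ∈ L) (hc : ∀ s ∈ S, t ≤ Multiset.card s) :
    ∑ s ∈ S, exp (-dotp x s.sum) ≤ exp (-τ * t + (exp τ - 1) * ∑ v ∈ L,
      exp (-dotp x v) / (1 - exp τ * exp (-dotp x v))) * ZL L x := by
  have hq1 : ∀ v ∈ L, 0 < 1 - exp (-dotp x v) := fun v hv => by
    have : exp (-dotp x v) < 1 := by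
      rw [Real.exp_lt_one_iff]; linarith [hL v hv]
    linarith
  have hlt : ∀ v ∈ L, 0 < 1 - exp τ * exp (-dotp x v) := fun v hv => by
    have : exp τ * exp (-dotp x v) < 1 := by
      rw [← Real.exp_add, Real.exp_lt_one_iff]; linarith [hL v hv]
    linarith
  have hprod : ∀ s : Multiset (ι → ℕ), (s.map fun v => exp τ * exp (-dotp x v)).prod =
      exp τ ^ Multiset.card s * exp (-dotp x s.sum) := by
    intro s
    rw [Multiset.prod_map_mul, prod_exp_dotp, Multiset.map_const', Multiset.prod_replicate]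
  have h1 : ∑ s ∈ S, (s.map fun v => exp τ * exp (-dotp x v)).prod ≤
      ∏ v ∈ L, (1 - exp τ * exp (-dotp x v))⁻¹ :=
    mgf_le L _ (fun v hv => ⟨by positivity, by linarith [hlt v hv]⟩) S hS
  have h2 : ∏ v ∈ L, (1 - exp τ * exp (-dotp x v))⁻¹ ≤ ZL L x *
      exp ((exp τ - 1) * ∑ v ∈ L, exp (-dotp x v) / (1 - exp τ * exp (-dotp x v))) := by
    rw [Finset.mul_sum, Real.exp_sum, ZL, ← Finset.prod_mul_distrib]
    refine Finset.prod_le_prod (fun v hv => inv_nonneg.2 (hlt v hv).le) fun v hv => ?_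
    have p1 := hlt v hv
    have p2 := hq1 v hv
    have e : (1 - exp τ * exp (-dotp x v))⁻¹ = (1 - exp (-dotp x v))⁻¹ *
        (1 + (exp τ - 1) * (exp (-dotp x v) / (1 - exp τ * exp (-dotp x v)))) := by
      field_simp
      ring
    rw [e]
    refine mul_le_mul_of_nonneg_left ?_ (inv_nonneg.2 p2.le)
    linarith [Real.add_one_le_exp ((exp τ - 1) *
      (exp (-dotp x v) / (1 - exp τ * exp (-dotp x v))))]
  have h4 : ∀ s ∈ S, exp (-dotp x s.sum) ≤
      exp (-τ * t) * (s.map fun v => exp τ * exp (-dotp x v)).prod := by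
    intro s hs
    rw [hprod, ← Real.exp_nat_mul, ← Real.exp_add, ← Real.exp_add]
    apply Real.exp_le_exp.2
    have : (t : ℝ) ≤ Multiset.card s := by exact_mod_cast hc s hs
    nlinarith
  calc ∑ s ∈ S, exp (-dotp x s.sum)
      ≤ ∑ s ∈ S, exp (-τ * t) * (s.map fun v => exp τ * exp (-dotp x v)).prod :=
        Finset.sum_le_sum h4
    _ = exp (-τ * t) * ∑ s ∈ S, (s.map fun v => exp τ * exp (-dotp x v)).prod := by
        rw [Finset.mul_sum]
    _ ≤ exp (-τ * t) * (ZL L x * exp ((exp τ - 1) * ∑ v ∈ L,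
          exp (-dotp x v) / (1 - exp τ * exp (-dotp x v)))) := by
        have := h1.trans h2
        gcongr
    _ = _ := by rw [mul_left_comm, ← Real.exp_add, mul_comm]

/-- from multiplicities to multisets -/
noncomputable def toM (L : Finset (ι → ℕ)) (m : {v // v ∈ L} → ℕ) : Multiset (ι → ℕ) :=
  ∑ v : {v // v ∈ L}, m v • {(v : ι → ℕ)}

theorem count_toM (L : Finset (ι → ℕ)) (m : {v // v ∈ L} → ℕ) (v : {v // v ∈ L}) :
    (toM L m).count (v : ι → ℕ) = m v := by
  rw [toM, Multiset.count_sum']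
  rw [Finset.sum_eq_single v]
  · simp
  · intro u _ hu
    have : (v : ι → ℕ) ≠ u := fun h => hu (Subtype.ext h.symm)
    simp [this]
  · simp

theorem prod_toM (L : Finset (ι → ℕ)) (m : {v // v ∈ L} → ℕ) (y : (ι → ℕ) → ℝ) :
    ((toM L m).map y).prod = ∏ v : {v // v ∈ L}, y v ^ m v := by
  rw [toM, ← Multiset.coe_mapAddMonoidHom, map_sum, Multiset.prod_sum]
  refine Finset.prod_congr rfl fun v _ => ?_
  simp [Multiset.map_nsmul, Multiset.prod_nsmul]

theorem mem_toM (L : Finset (ι → ℕ)) (m : {v // v ∈ L} → ℕ) {u : ι → ℕ} (hu : u ∈ toM L m) :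
    u ∈ L := by
  rw [toM, Multiset.mem_sum] at hu
  obtain ⟨v, -, hv⟩ := hu
  have : u = v := by
    have := Multiset.mem_of_mem_nsmul hv
    simpa using this
  rw [this]; exact v.2

/-- total mass of the multisets with at most `N` letters -/
theorem total_ge (L : Finset (ι → ℕ)) (x : ι → ℝ) (τ : ℝ) (hτ : 0 ≤ τ)
    (hL : ∀ v ∈ L, τ < dotp x v) (N : ℕ) :
    ZL L x ≤ ∑ s ∈ MF L N, exp (-dotp x s.sum) +
      exp (-τ * (N + 1 : ℕ) + (exp τ - 1) * ∑ v ∈ L,
        exp (-dotp x v) / (1 - exp τ * exp (-dotp x v))) * ZL L x := by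
  classical
  have hlim : Filter.Tendsto (fun K : ℕ => ∏ v : {v // v ∈ L},
      ∑ k ∈ Finset.range K, exp (-dotp x v) ^ k) Filter.atTop (nhds (ZL L x)) := by
    have e : ZL L x = ∏ v : {v // v ∈ L}, (1 - exp (-dotp x (v : ι → ℕ)))⁻¹ := by
      rw [ZL, ← Finset.prod_coe_sort]
    rw [e]
    refine tendsto_finsetProd _ fun v _ => ?_
    have h1 : exp (-dotp x (v : ι → ℕ)) < 1 := by
      rw [Real.exp_lt_one_iff]; linarith [hL v v.2]
    exact (hasSum_geometric_of_lt_one (exp_pos _).le h1).tendsto_sum_nat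
  refine le_of_tendsto' hlim fun K => ?_
  have hinj : Function.Injective (toM L) := by
    intro m m' h
    funext v
    rw [← count_toM L m v, ← count_toM L m' v, h]
  have e1 : ∏ v : {v // v ∈ L}, ∑ k ∈ Finset.range K, exp (-dotp x v) ^ k =
      ∑ s ∈ (Fintype.piFinset fun _ : {v // v ∈ L} => Finset.range K).image (toM L),
        exp (-dotp x s.sum) := by
    rw [Finset.prod_univ_sum, Finset.sum_image fun _ _ _ _ h => hinj h]
    refine Finset.sum_congr rfl fun m _ => ?_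
    rw [← prod_exp_dotp, prod_toM L m fun v => exp (-dotp x v)]
  rw [e1]
  set S := (Fintype.piFinset fun _ : {v // v ∈ L} => Finset.range K).image (toM L) with hSd
  have hS : ∀ s ∈ S, ∀ v ∈ s, v ∈ L := by
    intro s hs v hv
    obtain ⟨m, -, rfl⟩ := Finset.mem_image.1 hs
    exact mem_toM L m hv
  rw [← Finset.sum_filter_add_sum_filter_not S (fun s => Multiset.card s ≤ N)]
  refine add_le_add ?_ ?_
  · refine Finset.sum_le_sum_of_subset_of_nonneg ?_ fun _ _ _ => (exp_pos _).le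
    intro s hs
    rw [Finset.mem_filter] at hs
    exact (mem_MF L N s).2 ⟨hs.2, hS s hs.1⟩
  · refine tail_card L x τ hτ hL (N + 1) _ (fun s hs => hS s (Finset.mem_filter.1 hs).1) ?_
    intro s hs
    have := (Finset.mem_filter.1 hs).2
    omega

end total

section pig

theorem dotp_le_of_tail : ∀ {h : ℕ} (x : Fin h → ℝ) (_ : ∀ i, 0 ≤ x i) (_ : Monotone x)
    (θ w : Fin h → ℕ) (_ : ∀ r : ℕ, ∑ i : Fin h, (if r ≤ (i : ℕ) then θ i else 0) ≤
      ∑ i : Fin h, (if r ≤ (i : ℕ) then w i else 0)), dotp x θ ≤ dotp x w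
  | 0, x, _, _, θ, w, _ => by simp [dotp]
  | h + 1, x, hx0, hm, θ, w, ht => by
    have key : ∀ u : Fin (h + 1) → ℕ, dotp x u = x 0 * ((∑ i, u i : ℕ) : ℝ) +
        dotp (fun i : Fin h => x i.succ - x 0) (fun i => u i.succ) := by
      intro u
      simp only [dotp, Fin.sum_univ_succ, sub_mul, Finset.sum_sub_distrib]
      push_cast
      rw [mul_add, Finset.mul_sum]
      ring
    have ih := dotp_le_of_tail (fun i : Fin h => x i.succ - x 0)
      (fun i => sub_nonneg.2 (hm (Fin.zero_le _)))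
      (fun i j hij => sub_le_sub_right (hm (Fin.succ_le_succ_iff.2 hij)) _)
      (fun i => θ i.succ) (fun i => w i.succ) (fun r => by
        have := ht (r + 1)
        simpa [Fin.sum_univ_succ] using this)
    have h0 : ∑ i, θ i ≤ ∑ i, w i := by simpa using ht 0
    rw [key θ, key w]
    have h0' : ((∑ i, θ i : ℕ) : ℝ) ≤ ((∑ i, w i : ℕ) : ℝ) := by exact_mod_cast h0
    have := mul_le_mul_of_nonneg_left h0' (hx0 0)
    linarith

/-- number of multisets of at most `N` letters of `L` with sum `w` -/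
def cnt {h : ℕ} (L : Finset (Fin h → ℕ)) (N : ℕ) (w : Fin h → ℕ) : ℕ :=
  ((MF L N).filter fun s => s.sum = w).card

/-- **Window and pigeonhole.** -/
theorem pig {h : ℕ} (L : Finset (Fin h → ℕ)) (hL : ∀ v ∈ L, v ≠ 0) (x : Fin h → ℝ)
    (hx : ∀ i, 0 < x i) (hmono : Monotone x) (N : ℕ) (f : (Fin h → ℕ) → ℝ) (P : ℝ) (hP0 : 0 < P)
    (h1 : ∀ θ, f θ ≤ cnt L N θ)
    (h2 : ∀ w, 0 < cnt L N w → ∃ θ : Fin h → ℕ,
      (∀ r : ℕ, ∑ i : Fin h, (if r ≤ (i : ℕ) then θ i else 0) ≤
        ∑ i : Fin h, (if r ≤ (i : ℕ) then w i else 0)) ∧ (cnt L N w : ℝ) ≤ P * f θ)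
    (y σ : ℝ) (hy0 : 0 ≤ y) (hy : y ≤ 1 / 4)
    (hT : 3 / 4 * ZL L x ≤ ∑ s ∈ MF L N, exp (-dotp x s.sum))
    (nW : ℝ) (hnW : 0 < nW) (hW : (((MF L N).image Multiset.sum).card : ℝ) ≤ nW)
    (hsmall : 2 * P * nW * exp (-(y * σ) + 38 * y ^ 2 * nn L x) ≤ 1) :
    ∃ θ : Fin h → ℕ, (∀ i, |x i * θ i - x i * mean L x i| < σ) ∧
      ZL L x ≤ 2 * P * nW * f θ * exp (-dotp x θ) := by
  classical
  by_contra hcon
  push Not at hcon
  have hZ : 0 < ZL L x := ZL_pos L x fun v hv => dotp_pos x hx (hL v hv)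
  have hsum : ∑ s ∈ MF L N, exp (-dotp x s.sum) =
      ∑ w ∈ (MF L N).image Multiset.sum, (cnt L N w : ℝ) * exp (-dotp x w) := by
    rw [Finset.sum_comp (fun w : Fin h → ℕ => exp (-dotp x w)) Multiset.sum]
    refine Finset.sum_congr rfl fun w _ => ?_
    rw [nsmul_eq_mul, cnt]
  have hfib : ∀ θ, (cnt L N θ : ℝ) * exp (-dotp x θ) =
      ∑ s ∈ (MF L N).filter (fun s => s.sum = θ), exp (-dotp x s.sum) := by
    intro θ
    rw [Finset.sum_congr rfl (g := fun _ => exp (-dotp x θ))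
      (fun s hs => by rw [(Finset.mem_filter.1 hs).2]), Finset.sum_const, nsmul_eq_mul, cnt]
  have hterm : ∀ w ∈ (MF L N).image Multiset.sum,
      (cnt L N w : ℝ) * exp (-dotp x w) ≤ ZL L x / (2 * nW) := by
    intro w hw
    have hpos : 0 < cnt L N w := by
      obtain ⟨s, hs, rfl⟩ := Finset.mem_image.1 hw
      exact Finset.card_pos.2 ⟨s, Finset.mem_filter.2 ⟨hs, rfl⟩⟩
    obtain ⟨θ, htail, hθ⟩ := h2 w hpos
    have hle : dotp x θ ≤ dotp x w :=
      dotp_le_of_tail x (fun i => (hx i).le) hmono θ w htail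
    have hPf : 0 ≤ P * f θ := le_trans (Nat.cast_nonneg _) hθ
    have e1 : (cnt L N w : ℝ) * exp (-dotp x w) ≤ P * f θ * exp (-dotp x θ) := by
      apply mul_le_mul hθ (Real.exp_le_exp.2 (by linarith)) (exp_pos _).le hPf
    rw [le_div_iff₀ (by positivity)]
    by_cases hin : ∀ i, |x i * θ i - x i * mean L x i| < σ
    · have h3 := hcon θ hin
      have h4 : P * f θ * exp (-dotp x θ) * (2 * nW) = 2 * P * nW * f θ * exp (-dotp x θ) := by
        ring
      calc (cnt L N w : ℝ) * exp (-dotp x w) * (2 * nW)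
          ≤ P * f θ * exp (-dotp x θ) * (2 * nW) := by gcongr
        _ ≤ ZL L x := by rw [h4]; exact h3.le
    · push Not at hin
      obtain ⟨i, hi⟩ := hin
      have h5 : (cnt L N θ : ℝ) * exp (-dotp x θ) ≤
          exp (-(y * σ) + 38 * y ^ 2 * nn L x) * ZL L x := by
        rw [hfib]
        have hSL : ∀ s ∈ (MF L N).filter (fun s => s.sum = θ), ∀ v ∈ s, v ∈ L := fun s hs =>
          ((mem_MF L N s).1 (Finset.mem_filter.1 hs).1).2
        rcases le_abs.1 hi with hi' | hi'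
        · have := tail_one L hL x hx i y (by rw [abs_of_nonneg hy0]; exact hy)
            ((MF L N).filter (fun s => s.sum = θ)) hSL (y * σ) (fun s hs => by
              rw [(Finset.mem_filter.1 hs).2]
              exact mul_le_mul_of_nonneg_left hi' hy0)
          exact this
        · have := tail_one L hL x hx i (-y) (by rw [abs_neg, abs_of_nonneg hy0]; exact hy)
            ((MF L N).filter (fun s => s.sum = θ)) hSL (y * σ) (fun s hs => by
              rw [(Finset.mem_filter.1 hs).2]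
              have := mul_le_mul_of_nonneg_left hi' hy0
              linarith)
          rw [neg_sq] at this
          exact this
      have h6 : P * f θ * exp (-dotp x θ) ≤
          P * (exp (-(y * σ) + 38 * y ^ 2 * nn L x) * ZL L x) := by
        calc P * f θ * exp (-dotp x θ) ≤ P * (cnt L N θ * exp (-dotp x θ)) := by
              rw [mul_assoc]
              have := h1 θ
              gcongr
          _ ≤ _ := by gcongr
      calc (cnt L N w : ℝ) * exp (-dotp x w) * (2 * nW)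
          ≤ P * (exp (-(y * σ) + 38 * y ^ 2 * nn L x) * ZL L x) * (2 * nW) := by
            have := e1.trans h6
            gcongr
        _ = (2 * P * nW * exp (-(y * σ) + 38 * y ^ 2 * nn L x)) * ZL L x := by ring
        _ ≤ 1 * ZL L x := by gcongr
        _ = ZL L x := one_mul _
  have h7 : ∑ w ∈ (MF L N).image Multiset.sum, (cnt L N w : ℝ) * exp (-dotp x w) ≤
      ZL L x / 2 := by
    calc _ ≤ ∑ w ∈ (MF L N).image Multiset.sum, ZL L x / (2 * nW) := Finset.sum_le_sum hterm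
      _ = (((MF L N).image Multiset.sum).card : ℝ) * (ZL L x / (2 * nW)) := by
          rw [Finset.sum_const, nsmul_eq_mul]
      _ ≤ nW * (ZL L x / (2 * nW)) := by gcongr
      _ = ZL L x / 2 := by field_simp
  rw [hsum] at hT
  linarith

/-- **Final comparison.** -/
theorem cmp {h : ℕ} (L : Finset (Fin h → ℕ)) (hL : ∀ v ∈ L, v ≠ 0) (x : Fin h → ℝ)
    (hx : ∀ i, 0 < x i) (J : (Fin h → ℕ) → Prop) [DecidablePred J] (σJ : ℝ) (hσ : 0 ≤ σJ)
    (hJ : ∀ v ∈ L, J v → σJ < dotp x v) (F P nW : ℝ) (hP0 : 0 < P) (hnW : 0 < nW)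
    (θ lam : Fin h → ℕ) (t : ℕ) (hZ : ZL L x ≤ 2 * P * nW * F * exp (-dotp x θ))
    (hc : dotp x lam - dotp x θ + log (2 * P * nW) + (exp σJ - 1) * ∑ v ∈ L.filter J,
      exp (-dotp x v) / (1 - exp σJ * exp (-dotp x v)) ≤ σJ * t) :
    ((NTs L J lam t).ncard : ℝ) ≤ F := by
  have hZ0 : 0 < ZL L x := ZL_pos L x fun v hv => dotp_pos x hx (hL v hv)
  have hF : 0 < F := by
    by_contra hneg
    rw [not_lt] at hneg
    have : 2 * P * nW * F * exp (-dotp x θ) ≤ 0 := by
      have h1 : 0 < 2 * P * nW * exp (-dotp x θ) := by positivity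
      nlinarith
    linarith
  have h1 := nt_le L J x σJ hσ (fun v hv => dotp_pos x hx (hL v hv)) hJ lam t
  refine h1.trans ?_
  calc _ ≤ exp (dotp x lam - σJ * t + (exp σJ - 1) * ∑ v ∈ L.filter J,
        exp (-dotp x v) / (1 - exp σJ * exp (-dotp x v))) *
          (2 * P * nW * F * exp (-dotp x θ)) := by gcongr
    _ = F * exp (dotp x lam - dotp x θ + log (2 * P * nW) + (exp σJ - 1) *
        ∑ v ∈ L.filter J, exp (-dotp x v) / (1 - exp σJ * exp (-dotp x v)) - σJ * t) := by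
        have h2 : 2 * P * nW = exp (log (2 * P * nW)) := by
          rw [Real.exp_log (by positivity)]
        rw [show (2 * P * nW * F * exp (-dotp x θ) : ℝ) =
          F * (2 * P * nW) * exp (-dotp x θ) by ring]
        conv_lhs => rw [h2]
        rw [show ∀ a b c d : ℝ, a * (b * c * d) = b * (a * c * d) by intros; ring,
          ← Real.exp_add, ← Real.exp_add]
        congr 2
        ring
    _ ≤ F * 1 := by
        have h3 : exp (dotp x lam - dotp x θ + log (2 * P * nW) + (exp σJ - 1) *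
            ∑ v ∈ L.filter J, exp (-dotp x v) / (1 - exp σJ * exp (-dotp x v)) - σJ * t) ≤ 1 :=
          Real.exp_le_one_iff.2 (by linarith)
        gcongr
    _ = F := mul_one F

end pig

end Vale.Agent.P181.Z.H483
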