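import Vale.Agent.P181.Z.H483.Pig

/-! # `x_i E W_i ≤ ∑ e^{-x·v/2}` -/

open Real Finset

namespace Vale.Agent.P181.Z.H483

open Vale.Agent.P181.Z.H582

/-- `t e^{-t} / (1 - e^{-t}) ≤ e^{-t/2}` -/
theorem mul_gm_le {t : ℝ} (ht : 0 < t) : t * (exp (-t) / (1 - exp (-t))) ≤ exp (-t / 2) := by
  have h1 : exp (-t) < 1 := by rw [Real.exp_lt_one_iff]; linarith
  have h2 : exp (-t) = exp (-t / 2) * exp (-t / 2) := by rw [← Real.exp_add]; congr 1; ring
  have h3 : 0 < exp (-t / 2) := exp_pos _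
  -- t e^{-t/2} ≤ 1 - e^{-t}
  have h4 : t * exp (-t / 2) ≤ 1 - exp (-t) := by
    have h5 : t / 2 ≤ Real.sinh (t / 2) := Real.self_le_sinh_iff.2 (by linarith)
    have h6 : Real.sinh (t / 2) = (exp (t / 2) - exp (-(t / 2))) / 2 := Real.sinh_eq _
    have h7 : exp (t / 2) * exp (-t / 2) = 1 := by
      rw [← Real.exp_add, show t / 2 + -t / 2 = 0 by ring, Real.exp_zero]
    have h8 : exp (-(t / 2)) = exp (-t / 2) := by congr 1; ring
    rw [h6, h8] at h5
    have h9 : t ≤ exp (t / 2) - exp (-t / 2) := by linarith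
    calc t * exp (-t / 2) ≤ (exp (t / 2) - exp (-t / 2)) * exp (-t / 2) := by gcongr
      _ = 1 - exp (-t) := by rw [h2, sub_mul, h7]
  rw [← mul_div_assoc, div_le_iff₀ (by linarith), h2]
  calc t * (exp (-t / 2) * exp (-t / 2)) = exp (-t / 2) * (t * exp (-t / 2)) := by ring
    _ ≤ exp (-t / 2) * (1 - exp (-t)) := by gcongr
    _ = _ := by rw [h2]

/-- **[XE]** -/
theorem xe {ι : Type*} [Fintype ι] [DecidableEq ι] (L : Finset (ι → ℕ)) (hL : ∀ v ∈ L, v ≠ 0)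
    (x : ι → ℝ) (hx : ∀ i, 0 < x i) (i : ι) : x i * mean L x i ≤ nn L x := by
  rw [mean, nn, Finset.mul_sum]
  refine Finset.sum_le_sum fun v hv => ?_
  have ht := dotp_pos x hx (hL v hv)
  have h1 := mul_le_dotp x hx v i
  have h2 : exp (-dotp x v) < 1 := by rw [Real.exp_lt_one_iff]; linarith
  have h3 : 0 ≤ exp (-dotp x v) / (1 - exp (-dotp x v)) :=
    div_nonneg (exp_pos _).le (by linarith)
  calc x i * (v i * (exp (-dotp x v) / (1 - exp (-dotp x v))))
      = (x i * v i) * (exp (-dotp x v) / (1 - exp (-dotp x v))) := by ring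
    _ ≤ dotp x v * (exp (-dotp x v) / (1 - exp (-dotp x v))) := by gcongr
    _ ≤ exp (-(dotp x v) / 2) := mul_gm_le ht

/-- the same with the product over the rows -/
theorem xe' {ι : Type*} [Fintype ι] [DecidableEq ι] (L : Finset (ι → ℕ)) (hL : ∀ v ∈ L, v ≠ 0)
    (x : ι → ℝ) (hx : ∀ i, 0 < x i) (i : ι) :
    x i * mean L x i ≤ ∏ i, (1 - exp (-(x i) / 2))⁻¹ :=
  (xe L hL x hx i).trans (sum_exp_half_le L x hx)

end Vale.Agent.P181.Z.H483
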